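import Crest.Agent.N250.Gi.Defs
import Crest.Agent.N250.H.Fix

/-!
# Row 250 (helper12): scalar facts on `hat X a = a + a² Λ` in the easy regime
-/

set_option autoImplicit false

open Metric Set Filter Topology Complex

noncomputable section

namespace Crest.Agent.N250.Xi

open Gi B1

/-- the correction -/
def qq (X : ℝ) (a : ℂ) : ℂ := a ^ 2 * Lam X a


/-- the approximate inverse of `hat X` -/
def ph (X : ℝ) (a : ℂ) : ℂ := a - qq X a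

theorem log_le {X : ℝ} (hX : 1 ≤ X) : 2 * Real.log (X ^ 2) + 2 ≤ 18 * X ^ (1 / 4 : ℝ) := by
  have h1 := Real.log_le_rpow_div (x := X) (ε := 1 / 4) (by linarith) (by norm_num)
  have h2 : 1 ≤ X ^ (1 / 4 : ℝ) := Real.one_le_rpow hX (by norm_num)
  rw [Real.log_pow]
  push_cast
  linarith

theorem et_sub_one {X : ℝ} (hX : 2 ≤ X) {a : ℂ} (ha : ‖a‖ ≤ 1 / X ^ 2) :
    ‖a * ((X : ℂ) ^ 2 - 2) / 2‖ ≤ 1 / 2 := by
  have h1 : (4 : ℝ) ≤ X ^ 2 := by nlinarith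
  have e : ((X : ℂ) ^ 2 - 2) = ((X ^ 2 - 2 : ℝ) : ℂ) := by push_cast; ring
  rw [norm_div, norm_mul, e, norm_real, Real.norm_of_nonneg (by linarith), Complex.norm_two]
  rw [le_div_iff₀ (by positivity)] at ha
  nlinarith [norm_nonneg a]

theorem re_et {X : ℝ} (hX : 2 ≤ X) {a : ℂ} (ha : ‖a‖ ≤ 1 / X ^ 2) : 1 / 2 ≤ (et a X).re := by
  have := (abs_re_le_norm _).trans (et_sub_one hX ha)
  rw [et, add_re, one_re]
  linarith [(abs_le.1 this).1]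

theorem lam_le0 {X : ℝ} (hX : 2 ≤ X) {a : ℂ} (ha : ‖a‖ ≤ 1 / X ^ 2) :
    ‖Lam X a‖ ≤ 18 * X ^ (1 / 4 : ℝ) := by
  have h1 := et_sub_one hX ha
  have h2 := Complex.norm_log_one_add_half_le_self h1
  have h3 : 0 ≤ Real.log (X ^ 2) := Real.log_nonneg (by nlinarith)
  have h4 := log_le (X := X) (by linarith)
  refine (norm_sub_le _ _).trans ?_
  rw [norm_real, Real.norm_of_nonneg h3, et]
  linarith

theorem qq_le {X : ℝ} (hX : 2 ≤ X) {a : ℂ} (ha : ‖a‖ ≤ 1 / X ^ 2) :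
    ‖qq X a‖ ≤ ‖a‖ ^ 2 * (18 * X ^ (1 / 4 : ℝ)) := by
  rw [qq, norm_mul, norm_pow]
  exact mul_le_mul_of_nonneg_left (lam_le0 hX ha) (by positivity)



theorem quarter' {X : ℝ} (hX : 1 ≤ X) : X ^ (1 / 4 : ℝ) ≤ X := by
  have := Real.rpow_le_rpow_of_exponent_le hX (show (1 / 4 : ℝ) ≤ 1 by norm_num)
  rwa [Real.rpow_one] at this



theorem qq_le' {X : ℝ} (hX : 18 ≤ X) {a : ℂ} (ha : ‖a‖ ≤ 1 / X ^ 2) : ‖qq X a‖ ≤ ‖a‖ := by
  refine (qq_le (by linarith) ha).trans ?_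
  have h1 := quarter' (X := X) (by linarith)
  rw [le_div_iff₀ (by positivity)] at ha
  have h2 : ‖a‖ * (18 * X ^ (1 / 4 : ℝ)) ≤ 1 :=
    (mul_le_mul_of_nonneg_left (by nlinarith) (norm_nonneg a)).trans ha
  nlinarith [norm_nonneg a]


theorem hat_le {X : ℝ} (hX : 18 ≤ X) {a : ℂ} (ha : ‖a‖ ≤ 1 / X ^ 2) : ‖hat X a‖ ≤ 2 * ‖a‖ := by
  have := norm_add_le a (qq X a)
  linarith [qq_le' hX ha, show ‖hat X a‖ = ‖a + qq X a‖ from rfl]






theorem adm_small {K X : ℝ} (hX : 0 < X) (hK : 4 * K < X ^ 2) {a : ℂ} (ha : ‖a‖ ≤ 1 / X ^ 2) :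
    Adm K X a := by
  have h1 := norm_sub_le (a * X ^ 2 / 2) (1 / 8)
  have h2 : ‖a * (X : ℂ) ^ 2 / 2‖ ≤ 1 / 2 := by
    rw [le_div_iff₀ (by positivity)] at ha
    rw [norm_div, norm_mul, norm_pow, norm_real, Real.norm_of_nonneg hX.le, Complex.norm_two]
    linarith
  have h3 : 2 * K / X ^ 2 < 1 / 2 := by rw [div_lt_iff₀ (by positivity)]; linarith
  have h4 : ‖(1 / 8 : ℂ)‖ = 1 / 8 := by simp
  unfold Adm
  linarith


end Crest.Agent.N250.Xi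

end
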