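import Crest.Agent.N250.H.Fix

/-!
# Row 250 (helper12): the global solution of `Φ (p, a) = 0` when `a ↦ M⁻¹ Φ (p, a)` is close to the identity
-/

set_option autoImplicit false
set_option linter.unusedSectionVars false

open Metric Set Filter Topology

noncomputable section

namespace Crest.Agent.N250.Xi

open H

variable {P A G : Type*} [NormedAddCommGroup P] [NormedSpace ℂ P] [NormedAddCommGroup A]
  [NormedSpace ℂ A] [NormedAddCommGroup G] [NormedSpace ℂ G]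

/-- `a ↦ M⁻¹ Φ (p, a)` is the identity up to a `7/8` Lipschitz map on the slices of `Ω` -/
structure Eq8 (M : A ≃L[ℂ] G) (Ω : Set (P × A)) (Φ : P × A → G) : Prop where
  isOpen : IsOpen Ω
  hol : DifferentiableOn ℂ Φ Ω
  lip : ∀ p a a', (p, a) ∈ Ω → (p, a') ∈ Ω →
    ‖a - a' - M.symm (Φ (p, a) - Φ (p, a'))‖ ≤ 7 / 8 * ‖a - a'‖

/-- the solvable parameters -/
def WW (Ω : Set (P × A)) (Φ : P × A → G) : Set P := {p | ∃ a, (p, a) ∈ Ω ∧ Φ (p, a) = 0}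

open Classical in
/-- the solution -/
def sl (Ω : Set (P × A)) (Φ : P × A → G) (p : P) : A :=
  if h : p ∈ WW Ω Φ then h.choose else 0

theorem sl_mem {Ω : Set (P × A)} {Φ : P × A → G} {p : P} (h : p ∈ WW Ω Φ) : (p, sl Ω Φ p) ∈ Ω := by
  rw [sl, dif_pos h]; exact h.choose_spec.1

theorem sl_eq {Ω : Set (P × A)} {Φ : P × A → G} {p : P} (h : p ∈ WW Ω Φ) : Φ (p, sl Ω Φ p) = 0 := by
  rw [sl, dif_pos h]; exact h.choose_spec.2

theorem low_of {M : A ≃L[ℂ] G} {a : A} {g : G} {k : ℝ} (h : ‖a - M.symm g‖ ≤ k * ‖a‖) :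
    (1 - k) * ‖a‖ ≤ ‖M.symm g‖ := by
  have := norm_add_le (a - M.symm g) (M.symm g)
  rw [sub_add_cancel] at this
  linarith


theorem norm_deriv_le {s : ℂ → A} {φ : ℂ → G} {s' : A} {φ' : G} {c : ℂ} {k : ℝ}
    (hs : HasDerivAt s s' c) (hφ : HasDerivAt φ φ' c)
    (h : ∀ᶠ t in 𝓝 c, ‖s t - s c‖ ≤ k * ‖φ t - φ c‖) : ‖s'‖ ≤ k * ‖φ'‖ := by
  refine le_of_tendsto_of_tendsto (hasDerivAt_iff_tendsto_slope.1 hs).norm
    ((hasDerivAt_iff_tendsto_slope.1 hφ).norm.const_mul k) ?_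
  filter_upwards [mem_nhdsWithin_of_mem_nhds h] with t ht
  simp only [slope_def_module, norm_smul]
  rw [mul_left_comm]
  exact mul_le_mul_of_nonneg_left ht (norm_nonneg _)

namespace Eq8

variable {M : A ≃L[ℂ] G} {Ω : Set (P × A)} {Φ : P × A → G}

theorem low (h : Eq8 M Ω Φ) {p : P} {a a' : A} (ha : (p, a) ∈ Ω) (ha' : (p, a') ∈ Ω) :
    ‖a - a'‖ ≤ 8 * ‖M.symm (Φ (p, a) - Φ (p, a'))‖ := by
  have := low_of (h.lip p a a' ha ha')
  linarith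

theorem uniq (h : Eq8 M Ω Φ) {p : P} {a a' : A} (ha : (p, a) ∈ Ω) (ha' : (p, a') ∈ Ω)
    (e : Φ (p, a) = Φ (p, a')) : a = a' := by
  have := h.low ha ha'
  rw [e, sub_self, map_zero, norm_zero, mul_zero] at this
  exact sub_eq_zero.1 (norm_le_zero_iff.1 this)

theorem eq_sl (h : Eq8 M Ω Φ) {p : P} {a : A} (ha : (p, a) ∈ Ω) (e : Φ (p, a) = 0) :
    a = sl Ω Φ p :=
  h.uniq ha (sl_mem ⟨a, ha, e⟩) (e.trans (sl_eq ⟨a, ha, e⟩).symm)

theorem ctr (h : Eq8 M Ω Φ) {p : P} {a0 : A} {ρ : ℝ} (hb : ∀ a ∈ closedBall a0 ρ, (p, a) ∈ Ω)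
    (hρ : 0 ≤ ρ) (h0 : ‖M.symm (Φ (p, a0))‖ ≤ ρ / 8) :
    Ctr (fun a => a - M.symm (Φ (p, a))) (closedBall a0 ρ) (7 / 8) := by
  have hl : ∀ x ∈ closedBall a0 ρ, ∀ y ∈ closedBall a0 ρ,
      ‖x - M.symm (Φ (p, x)) - (y - M.symm (Φ (p, y)))‖ ≤ 7 / 8 * ‖x - y‖ := fun x hx y hy => by
    have := h.lip p x y (hb x hx) (hb y hy)
    rw [map_sub] at this
    rw [show x - M.symm (Φ (p, x)) - (y - M.symm (Φ (p, y))) =
      x - y - (M.symm (Φ (p, x)) - M.symm (Φ (p, y))) by abel]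
    linarith
  refine ⟨fun x hx => ?_, hl⟩
  have h1 := hl x hx a0 (mem_closedBall_self hρ)
  rw [mem_closedBall, dist_eq_norm] at hx ⊢
  have h2 := norm_sub_le (x - M.symm (Φ (p, x)) - (a0 - M.symm (Φ (p, a0)))) (M.symm (Φ (p, a0)))
  rw [show x - M.symm (Φ (p, x)) - (a0 - M.symm (Φ (p, a0))) - M.symm (Φ (p, a0)) =
    x - M.symm (Φ (p, x)) - a0 by abel] at h2
  linarith

variable [CompleteSpace A]

/-- existence from an approximate solution -/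
theorem ex (h : Eq8 M Ω Φ) {p : P} {a0 : A} {ρ : ℝ} (hb : ∀ a ∈ closedBall a0 ρ, (p, a) ∈ Ω)
    (hρ : 0 ≤ ρ) (h0 : ‖M.symm (Φ (p, a0))‖ ≤ ρ / 8) :
    p ∈ WW Ω Φ ∧ sl Ω Φ p ∈ closedBall a0 ρ := by
  obtain ⟨x, hx, e⟩ := (h.ctr hb hρ h0).exists_fix isClosed_closedBall (by norm_num) (by norm_num)
    ⟨a0, mem_closedBall_self hρ⟩
  have e' : Φ (p, x) = 0 := by simpa using e
  exact ⟨⟨x, hb x hx, e'⟩, h.eq_sl (hb x hx) e' ▸ hx⟩

theorem loc (h : Eq8 M Ω Φ) {p : P} (hp : p ∈ WW Ω Φ) :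
    ∃ U, IsOpen U ∧ p ∈ U ∧ U ⊆ WW Ω Φ ∧ DifferentiableOn ℂ (sl Ω Φ) U := by
  obtain ⟨ε, hε, hb⟩ := Metric.isOpen_iff.1 h.isOpen _ (sl_mem hp)
  set a0 := sl Ω Φ p
  have hc : ContinuousAt (fun q : P => ‖M.symm (Φ (q, a0))‖) p := by
    have h1 : ContinuousAt Φ (p, a0) :=
      (h.hol.differentiableAt (h.isOpen.mem_nhds (sl_mem hp))).continuousAt
    exact (M.symm.continuous.continuousAt.comp
      (ContinuousAt.comp (f := fun q : P => (q, a0)) h1 (by fun_prop))).norm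
  have h1 : ∀ᶠ q in 𝓝 p, ‖M.symm (Φ (q, a0))‖ < ε / 2 / 8 :=
    hc.eventually (gt_mem_nhds (by simp only [a0, sl_eq hp, map_zero, norm_zero]; positivity))
  obtain ⟨U, hU, hUo, hpU⟩ := _root_.mem_nhds_iff.1 (h1.and (ball_mem_nhds p hε))
  have hV : ∀ q ∈ U, ∀ x ∈ closedBall a0 (ε / 2), (q, x) ∈ Ω := fun q hq x hx => hb (by
    rw [← ball_prod_same]
    exact ⟨(hU hq).2, closedBall_subset_ball (by linarith) hx⟩)
  obtain ⟨x, hx, hx'⟩ := exists_fix_hol (T := fun q a => a - M.symm (Φ (q, a))) (k := 7 / 8)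
    (ρ := ε / 2) (x0 := a0) (V := Ω) hUo (by norm_num) (by norm_num) (by positivity)
    (fun q hq => h.ctr (hV q hq) (by positivity) (hU hq).1.le) hV
    (differentiableOn_snd.sub (M.symm.differentiable.comp_differentiableOn h.hol))
  have e : ∀ q ∈ U, Φ (q, x q) = 0 := fun q hq => by simpa using (hx' q hq).2
  exact ⟨U, hUo, hpU, fun q hq => ⟨x q, hV q hq _ (hx' q hq).1, e q hq⟩,
    hx.congr fun q hq => (h.eq_sl (hV q hq _ (hx' q hq).1) (e q hq)).symm⟩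

theorem isOpen_WW (h : Eq8 M Ω Φ) : IsOpen (WW Ω Φ) :=
  isOpen_iff_forall_mem_open.2 fun _ hp =>
    let ⟨U, h1, h2, h3, _⟩ := h.loc hp
    ⟨U, h3, h1, h2⟩

theorem sl_diffAt (h : Eq8 M Ω Φ) {p : P} (hp : p ∈ WW Ω Φ) : DifferentiableAt ℂ (sl Ω Φ) p :=
  let ⟨_, h1, h2, _, h4⟩ := h.loc hp
  h4.differentiableAt (h1.mem_nhds h2)


/-- the derivative of the solution along a curve of parameters -/
theorem deriv_le (h : Eq8 M Ω Φ) {γ : ℂ → P} {c : ℂ} (hγ : DifferentiableAt ℂ γ c)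
    (hp : γ c ∈ WW Ω Φ) :
    ‖deriv (fun t => sl Ω Φ (γ t)) c‖ ≤
      8 * ‖deriv (fun t => M.symm (Φ (γ t, sl Ω Φ (γ c)))) c‖ := by
  have hm := h.isOpen.mem_nhds (sl_mem hp)
  have hg : DifferentiableAt ℂ (fun t => (γ t, sl Ω Φ (γ c))) c := by fun_prop
  have h1 : DifferentiableAt ℂ (fun t => M.symm (Φ (γ t, sl Ω Φ (γ c)))) c :=
    M.symm.differentiableAt.comp c (DifferentiableAt.comp (f := fun t => (γ t, sl Ω Φ (γ c))) c
      (h.hol.differentiableAt hm) hg)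
  refine norm_deriv_le ((h.sl_diffAt hp).comp c hγ).hasDerivAt h1.hasDerivAt ?_
  filter_upwards [hγ.continuousAt.eventually (h.isOpen_WW.mem_nhds hp),
    hg.continuousAt.eventually hm] with t ht ht'
  have := h.low (sl_mem ht) ht'
  rw [sl_eq ht, zero_sub, map_neg, norm_neg] at this
  simpa [sl_eq hp] using this

end Eq8

/-- the same with the constant `1/2` -/
structure Eqn (M : A ≃L[ℂ] G) (Ω : Set (P × A)) (Φ : P × A → G) : Prop where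
  isOpen : IsOpen Ω
  hol : DifferentiableOn ℂ Φ Ω
  lip : ∀ p a a', (p, a) ∈ Ω → (p, a') ∈ Ω →
    ‖a - a' - M.symm (Φ (p, a) - Φ (p, a'))‖ ≤ ‖a - a'‖ / 2

namespace Eqn

variable {M : A ≃L[ℂ] G} {Ω : Set (P × A)} {Φ : P × A → G}

theorem to8 (h : Eqn M Ω Φ) : Eq8 M Ω Φ :=
  ⟨h.isOpen, h.hol, fun p a a' ha ha' =>
    (h.lip p a a' ha ha').trans (by linarith [norm_nonneg (a - a')])⟩



theorem eq_sl (h : Eqn M Ω Φ) {p : P} {a : A} (ha : (p, a) ∈ Ω) (e : Φ (p, a) = 0) :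
    a = sl Ω Φ p := h.to8.eq_sl ha e

theorem ctr (h : Eqn M Ω Φ) {p : P} {a0 : A} {ρ : ℝ} (hb : ∀ a ∈ closedBall a0 ρ, (p, a) ∈ Ω)
    (hρ : 0 ≤ ρ) (h0 : ‖M.symm (Φ (p, a0))‖ ≤ ρ / 2) :
    Ctr (fun a => a - M.symm (Φ (p, a))) (closedBall a0 ρ) (1 / 2) := by
  have hl : ∀ x ∈ closedBall a0 ρ, ∀ y ∈ closedBall a0 ρ,
      ‖x - M.symm (Φ (p, x)) - (y - M.symm (Φ (p, y)))‖ ≤ 1 / 2 * ‖x - y‖ := fun x hx y hy => by
    have := h.lip p x y (hb x hx) (hb y hy)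
    rw [map_sub] at this
    rw [show x - M.symm (Φ (p, x)) - (y - M.symm (Φ (p, y))) =
      x - y - (M.symm (Φ (p, x)) - M.symm (Φ (p, y))) by abel]
    linarith
  refine ⟨fun x hx => ?_, hl⟩
  have h1 := hl x hx a0 (mem_closedBall_self hρ)
  rw [mem_closedBall, dist_eq_norm] at hx ⊢
  have h2 := norm_sub_le (x - M.symm (Φ (p, x)) - (a0 - M.symm (Φ (p, a0)))) (M.symm (Φ (p, a0)))
  rw [show x - M.symm (Φ (p, x)) - (a0 - M.symm (Φ (p, a0))) - M.symm (Φ (p, a0)) =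
    x - M.symm (Φ (p, x)) - a0 by abel] at h2
  linarith

variable [CompleteSpace A]

theorem ex (h : Eqn M Ω Φ) {p : P} {a0 : A} {ρ : ℝ} (hb : ∀ a ∈ closedBall a0 ρ, (p, a) ∈ Ω)
    (hρ : 0 ≤ ρ) (h0 : ‖M.symm (Φ (p, a0))‖ ≤ ρ / 2) :
    p ∈ WW Ω Φ ∧ sl Ω Φ p ∈ closedBall a0 ρ := by
  obtain ⟨x, hx, e⟩ := (h.ctr hb hρ h0).exists_fix isClosed_closedBall (by norm_num) (by norm_num)
    ⟨a0, mem_closedBall_self hρ⟩
  have e' : Φ (p, x) = 0 := by simpa using e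
  exact ⟨⟨x, hb x hx, e'⟩, h.eq_sl (hb x hx) e' ▸ hx⟩


theorem isOpen_WW (h : Eqn M Ω Φ) : IsOpen (WW Ω Φ) := h.to8.isOpen_WW

theorem sl_diffAt (h : Eqn M Ω Φ) {p : P} (hp : p ∈ WW Ω Φ) : DifferentiableAt ℂ (sl Ω Φ) p :=
  h.to8.sl_diffAt hp


end Eqn

/-- real equations have real solutions -/
theorem Eq8.real {κ : Type} [Fintype κ] {M : (κ → ℂ) ≃L[ℂ] G} {Ω : Set (P × (κ → ℂ))}
    {Φ : P × (κ → ℂ) → G} (h : Eq8 M Ω Φ) {p : P} {a : κ → ℂ} (ha : (p, a) ∈ Ω) (e : Φ (p, a) = 0)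
    (hr : (p, fun j => ((a j).re : ℂ)) ∈ Ω)
    (hi : ∀ j, (M.symm (Φ (p, fun j => ((a j).re : ℂ))) j).im = 0) (j : κ) : (a j).im = 0 := by
  have h1 := h.lip p a _ ha hr
  set b : κ → ℂ := fun j => ((a j).re : ℂ)
  have h2 : ‖a - b‖ ≤ 7 / 8 * ‖a - b‖ := by
    refine (pi_norm_le_iff_of_nonneg (by positivity)).2 fun i => le_trans ?_
      ((norm_le_pi_norm _ i).trans h1)
    refine le_trans (le_of_eq ?_) (Complex.abs_im_le_norm _)
    have e1 : (a - b) i = (a i).im * Complex.I := by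
      simp only [b, Pi.sub_apply]; rw [sub_eq_iff_eq_add', Complex.re_add_im]
    rw [e1, e, zero_sub, map_neg]
    simp [hi i, b]
  have h3 : a - b = 0 := norm_le_zero_iff.1 (by linarith)
  have := congrArg Complex.im (congrFun (sub_eq_zero.1 h3) j)
  simpa [b] using this


end Crest.Agent.N250.Xi

end
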