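import Crest.Agent.N250.R0.Stm
import Crest.Agent.N250.Gl.Sys
import Crest.Agent.N250.Xi.Defs
import Crest.Agent.N250.R0.Chain_Mg
import Crest.Agent.N250.B2.Nc2_Mg
import Crest.Agent.N250.R.Ls
import Crest.Agent.N250.Sg.EnS
import Crest.Agent.N250.Xi.Asm
import Crest.Agent.N250.Xi.Soft_Mg
import Crest.Agent.N250.Sg.Stm
import Crest.Agent.N250.R.Step
import Crest.Agent.N250.Tb.Surj
import Crest.Agent.N250.Tb.J
import Crest.Agent.N250.T.Reach
import Crest.Agent.N250.FV.Hu0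
import Crest.Agent.N250.MP.Max
import Crest.Agent.N250.R.One
import Crest.Agent.N250.FV.Main
import Crest.Agent.N250.Tb.Dual2_Mg
import Crest.Agent.N250.Tr.Inst2
import Crest.Agent.N250.Xi.Inv
import Crest.Agent.N250.Xi.Sc
import Crest.Agent.N250.Xi.Tip
import Crest.Agent.N250.B1.Nest

-- ▼ part N250/Xi/Th
section

/-!
# Row 250 (helper61): the linearisation of `Θ` in the end parameters, and `Xi.onto`
-/

set_option autoImplicit false
set_option linter.unusedSectionVars false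
open Set Filter Topology Metric

noncomputable section

namespace Crest.Agent.N250.Xi

open B2 (aa ofR)

namespace Th

variable {ι κ : Type} [Fintype ι] [Fintype κ]

/-- `a ↦ R0.mk 0 a` -/
def mkL : (κ → ℂ) →L[ℂ] (ι ⊕ κ → ℂ) :=
  ContinuousLinearMap.pi fun l => Sum.elim (fun _ => 0) (fun j => ContinuousLinearMap.proj j) l

/-- `aa` -/
def aaL : (ι ⊕ κ → ℂ) →L[ℂ] (κ → ℂ) :=
  ContinuousLinearMap.pi fun j => ContinuousLinearMap.proj (Sum.inr j)

theorem aaL_apply (z : ι ⊕ κ → ℂ) : aaL z = aa z := rfl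

theorem mkL_apply (a : κ → ℂ) : (mkL a : ι ⊕ κ → ℂ) = R0.mk 0 a := by
  funext l; cases l <;> rfl

theorem mk_eq (z : ι ⊕ κ → ℂ) (a : κ → ℂ) : R0.mk z a = R0.mk z 0 + mkL a := by
  funext l; cases l <;> simp [R0.mk, mkL_apply]


theorem norm_mk_le (z : ι ⊕ κ → ℂ) (a : κ → ℂ) : ‖R0.mk z a‖ ≤ max ‖z‖ ‖a‖ :=
  (pi_norm_le_iff_of_nonneg (by positivity)).2 fun l => by
    cases l
    · exact (norm_le_pi_norm z _).trans (le_max_left _ _)
    · exact (norm_le_pi_norm a _).trans (le_max_right _ _)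

theorem norm_mkL (a : κ → ℂ) : ‖(mkL a : ι ⊕ κ → ℂ)‖ ≤ ‖a‖ := by
  rw [mkL_apply]; simpa using norm_mk_le (0 : ι ⊕ κ → ℂ) a

theorem norm_aa (z : ι ⊕ κ → ℂ) : ‖aa z‖ ≤ ‖z‖ :=
  (pi_norm_le_iff_of_nonneg (norm_nonneg _)).2 fun _ => norm_le_pi_norm z _

theorem norm_ofR' {σ : Type} [Fintype σ] (x : σ → ℝ) : ‖ofR x‖ = ‖x‖ := by
  simp [Pi.norm_def, ofR]

theorem hasF_mk (z : ι ⊕ κ → ℂ) (a : κ → ℂ) : HasFDerivAt (R0.mk z) mkL a := by
  have : R0.mk z = fun a => R0.mk z 0 + mkL a := funext (mk_eq z)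
  rw [this]
  exact mkL.hasFDerivAt.const_add _

variable {Θ : (ι ⊕ κ → ℂ) → ι ⊕ κ → ℂ} {r C0 : ℝ}

theorem fd_inl (hr : 0 < r) (hΘ : DifferentiableOn ℂ Θ (ball 0 r))
    (hi : ∀ z ∈ ball (0 : ι ⊕ κ → ℂ) r, ∀ i, Θ z (Sum.inl i) = z (Sum.inl i)) (v : ι ⊕ κ → ℂ)
    (i : ι) : fderiv ℂ Θ 0 v (Sum.inl i) = v (Sum.inl i) := by
  have h1 := (hΘ.differentiableAt (ball_mem_nhds _ hr)).hasFDerivAt
  have h2 := (ContinuousLinearMap.proj (R := ℂ) (φ := fun _ : ι ⊕ κ => ℂ)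
    (Sum.inl i)).hasFDerivAt.comp 0 h1
  have h3 := (ContinuousLinearMap.proj (R := ℂ) (φ := fun _ : ι ⊕ κ => ℂ)
    (Sum.inl i)).hasFDerivAt (x := 0)
  have h4 := h2.unique (h3.congr_of_eventuallyEq (by
    filter_upwards [ball_mem_nhds _ hr] with z hz using hi z hz i))
  exact congrArg (fun L => L v) h4

theorem fd_real (hr : 0 < r) (hΘ : DifferentiableOn ℂ Θ (ball 0 r))
    (hR : ∀ x : ι ⊕ κ → ℝ, ‖x‖ < r → ∀ l, (Θ (ofR x) l).im = 0) (v : ι ⊕ κ → ℂ)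
    (hv : ∀ l, (v l).im = 0) (l : ι ⊕ κ) : (fderiv ℂ Θ 0 v l).im = 0 := by
  have h1 := ((hΘ.differentiableAt (ball_mem_nhds _ hr)).hasFDerivAt).restrictScalars ℝ
  have h2 : HasDerivAt (fun t : ℝ => t • v) v 0 := by
    simpa using (hasDerivAt_id (0 : ℝ)).smul_const v
  have h3 := HasFDerivAt.comp_hasDerivAt_of_eq (0 : ℝ) h1 h2 (by simp)
  have h4 := Complex.imCLM.hasFDerivAt.comp_hasDerivAt (0 : ℝ) (hasDerivAt_pi.1 h3 l)
  have h5 : ∀ᶠ t : ℝ in 𝓝 0, t • v ∈ ball (0 : ι ⊕ κ → ℂ) r :=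
    h2.continuousAt.eventually_mem (by rw [zero_smul]; exact ball_mem_nhds _ hr)
  refine h4.unique ((hasDerivAt_const (0 : ℝ) (0 : ℝ)).congr_of_eventuallyEq ?_)
  filter_upwards [h5] with t ht
  have e : ofR (fun l => t * (v l).re) = t • v := by
    funext l
    apply Complex.ext <;> simp [ofR, hv l]
  have := hR (fun l => t * (v l).re) (by rw [← norm_ofR', e]; simpa using ht) l
  rw [e] at this
  exact this

end Th

open Th

variable {ι κ : Type} [Fintype ι] [Fintype κ] {Θ : (ι ⊕ κ → ℂ) → ι ⊕ κ → ℂ} {r C0 : ℝ}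

theorem th_lin (hr : 0 < r) (hΘ : DifferentiableOn ℂ Θ (ball 0 r))
    (hi : ∀ z ∈ ball (0 : ι ⊕ κ → ℂ) r, ∀ i, Θ z (Sum.inl i) = z (Sum.inl i))
    (hR : ∀ x : ι ⊕ κ → ℝ, ‖x‖ < r → ∀ l, (Θ (ofR x) l).im = 0)
    (jac : ∀ α : κ → ℂ, ‖α‖ ≤ C0 * ‖fderiv ℂ Θ 0 (R0.mk 0 α)‖) :
    ∃ A : (κ → ℂ) ≃L[ℂ] (κ → ℂ), (∀ g, ‖A.symm g‖ ≤ C0 * ‖g‖) ∧
      (∀ α, A α = aa (fderiv ℂ Θ 0 (R0.mk 0 α))) ∧
      (∀ g, (∀ j, (g j).im = 0) → ∀ j, (A.symm g j).im = 0) ∧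
      ∀ s, 0 < s → ∃ r2, 0 < r2 ∧ r2 ≤ r ∧ ∀ z a a', R0.mk z a ∈ ball (0 : ι ⊕ κ → ℂ) r2 →
        R0.mk z a' ∈ ball (0 : ι ⊕ κ → ℂ) r2 →
        ‖a - a' - A.symm (aa (Θ (R0.mk z a)) - aa (Θ (R0.mk z a')))‖ ≤ s * ‖a - a'‖ := by
  set A0 : (κ → ℂ) →L[ℂ] (κ → ℂ) := aaL ∘L fderiv ℂ Θ 0 ∘L mkL with hA0
  have hA : ∀ α, A0 α = aa (fderiv ℂ Θ 0 (R0.mk 0 α)) := fun α => by rw [← mkL_apply]; rfl
  have hlow : ∀ α, ‖α‖ ≤ C0 * ‖A0 α‖ := by
    intro α
    have e : fderiv ℂ Θ 0 (R0.mk 0 α) = mkL (A0 α) := by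
      funext l
      cases l
      · rw [fd_inl hr hΘ hi, mkL_apply]; rfl
      · rw [mkL_apply, hA]; rfl
    have h1 : ‖fderiv ℂ Θ 0 (R0.mk 0 α)‖ = ‖A0 α‖ :=
      le_antisymm (e ▸ norm_mkL _) (hA α ▸ norm_aa _)
    exact h1 ▸ jac α
  have hinj : Function.Injective A0 := (injective_iff_map_eq_zero A0).2 fun α h => by
    have := hlow α
    rw [h, norm_zero, mul_zero] at this
    exact norm_le_zero_iff.1 this
  set A := (LinearEquiv.ofInjectiveEndo (A0 : (κ → ℂ) →ₗ[ℂ] (κ → ℂ)) hinj).toContinuousLinearEquiv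
    with hAdef
  have hAA : ∀ α, A α = A0 α := fun α => rfl
  have hinv : ∀ g, ‖A.symm g‖ ≤ C0 * ‖g‖ := fun g => by
    have := hlow (A.symm g)
    rwa [← hAA, A.apply_symm_apply] at this
  refine ⟨A, hinv, fun α => (hAA α).trans (hA α), fun g hg => ?_, fun s hs => ?_⟩
  · have hre : ∀ x : κ → ℝ, ∀ j, (A (ofR x) j).im = 0 := fun x j => by
      rw [hAA, hA]
      exact fd_real hr hΘ hR _ (fun l => by cases l <;> simp [R0.mk, ofR]) _
    have e : A.symm g = ofR (fun j => (A.symm g j).re) + Complex.I • ofR fun j => (A.symm g j).im := by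
      funext j
      simp [ofR, mul_comm Complex.I]
    have e2 := congrArg A e
    rw [A.apply_symm_apply, map_add, map_smul] at e2
    have e3 : A (ofR fun j => (A.symm g j).im) = 0 := by
      funext j
      have h1 := congrArg Complex.im (congrFun e2 j)
      simp only [Pi.add_apply, Pi.smul_apply, smul_eq_mul, Complex.add_im, Complex.mul_im,
        Complex.I_re, Complex.I_im, hg, hre, zero_mul, one_mul, zero_add] at h1
      exact Complex.ext h1.symm (hre _ _)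
    intro j
    simpa [ofR] using congrFun (A.map_eq_zero_iff.1 e3) j
  · have hH : Gl.HolAt Θ := by
      filter_upwards [isOpen_ball.eventually_mem (mem_ball_self hr)] with z hz
      exact hΘ.differentiableAt (isOpen_ball.mem_nhds hz)
    have hc : 0 < |C0| + 1 := by positivity
    obtain ⟨r1, hr1, h1⟩ := Metric.eventually_nhds_iff_ball.1 (hH.fd_near (div_pos hs hc))
    refine ⟨min r1 r, lt_min hr1 hr, min_le_right _ _, fun z a a' ha ha' => ?_⟩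
    have hconv : Convex ℝ {b : κ → ℂ | R0.mk z b ∈ ball (0 : ι ⊕ κ → ℂ) (min r1 r)} := by
      have : {b : κ → ℂ | R0.mk z b ∈ ball (0 : ι ⊕ κ → ℂ) (min r1 r)} =
          (mkL.restrictScalars ℝ : (κ → ℂ) →L[ℝ] (ι ⊕ κ → ℂ)) ⁻¹' ball (-R0.mk z 0) (min r1 r) := by
        ext b
        simp only [mem_preimage, mem_ball_iff_norm, mem_ofPred_eq, sub_zero, sub_neg_eq_add]
        rw [mk_eq, add_comm]
        rfl
      rw [this]
      exact (convex_ball _ _).linear_preimage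
        (mkL.restrictScalars ℝ : (κ → ℂ) →L[ℝ] (ι ⊕ κ → ℂ)).toLinearMap
    have := hconv.norm_image_sub_le_of_norm_hasFDerivWithin_le (𝕜 := ℂ) (C := s)
      (f := fun b => b - A.symm (aa (Θ (R0.mk z b))))
      (f' := fun b => ContinuousLinearMap.id ℂ _ - (A.symm : (κ → ℂ) →L[ℂ] (κ → ℂ)) ∘L aaL ∘L
        fderiv ℂ Θ (R0.mk z b) ∘L mkL) (fun b hb => ?_) (fun b hb => ?_) ha' ha
    · refine le_of_eq_of_le (congrArg norm ?_) this
      rw [map_sub]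
      abel
    · have h2 := (hΘ.differentiableAt (isOpen_ball.mem_nhds
        (ball_subset_ball (min_le_right _ _) hb))).hasFDerivAt
      exact ((hasFDerivAt_id b).sub ((A.symm : (κ → ℂ) →L[ℂ] (κ → ℂ)).hasFDerivAt.comp b
        (aaL.hasFDerivAt.comp b (h2.comp b (hasF_mk z b))))).hasFDerivWithinAt
    · refine ContinuousLinearMap.opNorm_le_bound _ hs.le fun v => ?_
      have h2 := h1 _ (ball_subset_ball (min_le_left _ _) hb)
      have e : (ContinuousLinearMap.id ℂ (κ → ℂ) - (A.symm : (κ → ℂ) →L[ℂ] (κ → ℂ)) ∘L aaL ∘L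
          fderiv ℂ Θ (R0.mk z b) ∘L mkL) v =
          -A.symm (aa ((fderiv ℂ Θ (R0.mk z b) - fderiv ℂ Θ 0) (mkL v))) := by
        have : A.symm (aaL (fderiv ℂ Θ 0 (mkL v))) = v := A.symm_apply_apply v
        rw [← aaL_apply, sub_apply, sub_apply, map_sub,
          map_sub, this, neg_sub]
        rfl
      rw [e, norm_neg]
      calc _ ≤ (|C0| + 1) * ‖aa ((fderiv ℂ Θ (R0.mk z b) - fderiv ℂ Θ 0) (mkL v))‖ :=
            (hinv _).trans (by gcongr; linarith [le_abs_self C0])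
        _ ≤ (|C0| + 1) * (s / (|C0| + 1) * ‖v‖) := by
            gcongr
            refine (norm_aa _).trans ((ContinuousLinearMap.le_opNorm _ _).trans ?_)
            exact mul_le_mul h2 (norm_mkL v) (norm_nonneg _) (by positivity)
        _ = _ := by field_simp

theorem th_onto (hr : 0 < r) (hΘ : DifferentiableOn ℂ Θ (ball 0 r))
    (hi : ∀ z ∈ ball (0 : ι ⊕ κ → ℂ) r, ∀ i, Θ z (Sum.inl i) = z (Sum.inl i)) (h0 : Θ 0 = 0)
    (hR : ∀ x : ι ⊕ κ → ℝ, ‖x‖ < r → ∀ l, (Θ (ofR x) l).im = 0)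
    (jac : ∀ α : κ → ℂ, ‖α‖ ≤ C0 * ‖fderiv ℂ Θ 0 (R0.mk 0 α)‖) :
    ∀ ε : ℝ, 0 < ε → ∃ η : ℝ, 0 < η ∧ ∀ ζ : ι ⊕ κ → ℝ, ‖ζ‖ < η →
      ∃ x : ι ⊕ κ → ℝ, ‖x‖ < ε ∧ Θ (ofR x) = ofR ζ := by
  intro ε hε
  obtain ⟨A, hinv, -, hreal, hlin⟩ := th_lin hr hΘ hi hR jac
  obtain ⟨r2, hr2, hr2r, hl⟩ := hlin (1 / 2) (by norm_num)
  set ρ := min r2 ε / 2 with hρ
  have hρ0 : 0 < ρ := by positivity
  have hρ1 : ρ < min r2 ε := by linarith [lt_min hr2 hε]
  have hcont : ContinuousAt (fun z : ι ⊕ κ → ℂ => A.symm (aa (Θ (R0.mk z 0)) - aa z)) 0 := by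
    have h1 : Continuous fun z : ι ⊕ κ → ℂ => R0.mk z (0 : κ → ℂ) :=
      continuous_pi fun l => by cases l <;> simp only [R0.mk, Sum.elim_inl, Sum.elim_inr] <;> fun_prop
    have h2 : ContinuousAt Θ (R0.mk (0 : ι ⊕ κ → ℂ) 0) := by
      rw [← mkL_apply, map_zero]
      exact (hΘ.differentiableAt (ball_mem_nhds _ hr)).continuousAt
    exact A.symm.continuous.continuousAt.comp ((aaL.continuous.continuousAt.comp
      (ContinuousAt.comp (f := fun z : ι ⊕ κ → ℂ => R0.mk z (0 : κ → ℂ)) h2 h1.continuousAt)).sub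
        aaL.continuous.continuousAt)
  obtain ⟨η, hη, hc⟩ := Metric.continuousAt_iff.1 hcont (ρ / 2) (by positivity)
  refine ⟨min η ρ, lt_min hη hρ0, fun ζ hζ => ?_⟩
  have hz : ‖ofR ζ‖ < ρ := by rw [norm_ofR']; exact hζ.trans_le (min_le_right _ _)
  have h1 : ‖A.symm (aa (Θ (R0.mk (ofR ζ) 0)) - aa (ofR ζ))‖ ≤ ρ / 2 := by
    have := hc (x := ofR ζ) (by rw [dist_zero_right, norm_ofR']; exact hζ.trans_le (min_le_left _ _))
    rw [← mkL_apply, map_zero, h0, sub_self, map_zero, dist_zero_right] at this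
    exact this.le
  set S : Set (κ → ℂ) := closedBall 0 ρ ∩ {a | ∀ j, (a j).im = 0} with hS
  have hn : ∀ a ∈ S, ‖R0.mk (ofR ζ) a‖ < min r2 ε := fun a ha =>
    ((norm_mk_le _ _).trans (max_le hz.le (mem_closedBall_zero_iff.1 ha.1))).trans_lt hρ1
  have hb : ∀ a ∈ S, R0.mk (ofR ζ) a ∈ ball (0 : ι ⊕ κ → ℂ) r2 := fun a ha =>
    mem_ball_zero_iff.2 ((hn a ha).trans_le (min_le_left _ _))
  have hx : ∀ a ∈ S, ofR (fun l => (R0.mk (ofR ζ) a l).re) = R0.mk (ofR ζ) a := fun a ha => by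
    funext l
    cases l
    · simp [ofR, R0.mk]
    · exact Complex.ext (by simp [ofR]) (by simp [ofR, R0.mk, ha.2 _])
  have h0S : (0 : κ → ℂ) ∈ S := ⟨mem_closedBall_self hρ0.le, fun _ => rfl⟩
  have hlip : ∀ a ∈ S, ∀ a' ∈ S, ‖(a - A.symm (aa (Θ (R0.mk (ofR ζ) a)) - aa (ofR ζ))) -
      (a' - A.symm (aa (Θ (R0.mk (ofR ζ) a')) - aa (ofR ζ)))‖ ≤ 1 / 2 * ‖a - a'‖ := fun a ha a' ha' => by
    refine le_of_eq_of_le (congrArg norm ?_) (hl _ a a' (hb a ha) (hb a' ha'))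
    simp only [map_sub]
    abel
  have hT : H.Ctr (fun a => a - A.symm (aa (Θ (R0.mk (ofR ζ) a)) - aa (ofR ζ))) S (1 / 2) := by
    refine ⟨fun a ha => ⟨mem_closedBall_zero_iff.2 ?_, fun j => ?_⟩, hlip⟩
    · have h2 := hlip a ha 0 h0S
      have h3 := mem_closedBall_zero_iff.1 ha.1
      have h4 := norm_le_insert' (a - A.symm (aa (Θ (R0.mk (ofR ζ) a)) - aa (ofR ζ)))
        (0 - A.symm (aa (Θ (R0.mk (ofR ζ) 0)) - aa (ofR ζ)))
      rw [zero_sub, norm_neg] at h4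
      rw [zero_sub, sub_zero] at h2
      linarith
    · have h2 := hR (fun l => (R0.mk (ofR ζ) a l).re)
        (by rw [← norm_ofR', hx a ha]; exact (mem_ball_zero_iff.1 (hb a ha)).trans_le hr2r)
      rw [hx a ha] at h2
      have h3 := hreal (aa (Θ (R0.mk (ofR ζ) a)) - aa (ofR ζ)) (fun j => by simp [aa, ofR, h2]) j
      rw [Pi.sub_apply, Complex.sub_im, h3, ha.2 j, sub_zero]
  have hcl : IsClosed S := isClosed_closedBall.inter (by
    simp only [ofPred_forall]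
    exact isClosed_iInter fun j => isClosed_eq (by fun_prop) continuous_const)
  obtain ⟨a, ha, hfix⟩ := hT.exists_fix hcl (by norm_num) (by norm_num) ⟨0, h0S⟩
  refine ⟨fun l => (R0.mk (ofR ζ) a l).re, ?_, ?_⟩
  · rw [← norm_ofR', hx a ha]
    exact (hn a ha).trans_le (min_le_right _ _)
  · rw [hx a ha]
    have h2 := sub_eq_zero.1 (A.symm.map_eq_zero_iff.1 (sub_eq_self.1 hfix))
    funext l
    cases l
    · exact hi _ (ball_subset_ball hr2r (hb a ha)) _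
    · exact congrFun h2 _

end Crest.Agent.N250.Xi

end
end

-- ▼ part N250/Xi/Est
section

/-!
# Row 250 (helper61): `EstS`
-/

set_option autoImplicit false
open Set Filter Topology Metric

noncomputable section

namespace Crest.Agent.N250.Xi

open B2 (aa ofR)
open R0 (DomA Om hz)

theorem estS_holds : EstS := by
  intro C0 N ι κ _ _ FF Z cc Θ A0 r X0 θ C k h
  obtain ⟨A, hinv, -, hreal, hlin⟩ := th_lin h.r_pos h.hΘ h.Θ_inl h.Θ_real h.jac
  obtain ⟨r2, hr2, hr2r, hl⟩ := hlin (1 / 8) (by norm_num)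
  obtain ⟨r3, hr3, hb⟩ := Metric.continuousAt_iff.1
    (h.hΘ.differentiableAt (ball_mem_nhds _ h.r_pos)).continuousAt 1 one_pos
  have hr : min r2 r3 ≤ r := (min_le_left _ _).trans hr2r
  have hD : ∀ {K X : ℝ} {w : ι ⊕ κ → ℂ}, w ∈ DomA (min r2 r3) K X → w ∈ DomA r K X :=
    fun hw => ⟨fun i => (hw.1 i).trans_le hr, hw.2⟩
  have hO : Om (min r2 r3) (Gi.KK N) (max X0 1) θ ⊆ (Om r (Gi.KK N) X0 θ : Set (ℂ × (ι ⊕ κ → ℂ))) :=
    fun q hq => ⟨(le_max_left _ _).trans_lt hq.1, hq.2.1, hD hq.2.2⟩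
  have a1 := abs_nonneg C
  have a2 := abs_nonneg C0
  have a3 := norm_nonneg (A : (κ → ℂ) →L[ℂ] (κ → ℂ))
  have a4 := mul_nonneg a2 a1
  have a5 := le_abs_self C
  have a6 := le_abs_self C0
  refine ⟨A, min r2 r3, |C| + 1 + |C0| + ‖(A : (κ → ℂ) →L[ℂ] (κ → ℂ))‖ + |C0| * |C|, hr,
    lt_min hr2 hr3, h.θ_pos, h.k_pos, sq_nonneg _, by positivity, h.hZ.mono hO,
    fun q hq => (h.bd q (hO hq)).2.trans (by linarith), fun q hq => h.inl q (hO hq),
    fun X hX x hx => (h.real X ((le_max_left _ _).trans_lt hX) x (hD hx)).2,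
    h.hΘ.mono (ball_subset_ball hr), fun z hz => ?_, fun x hx => h.Θ_real x (hx.trans_le hr),
    fun z hz => h.Θ_inl z (ball_subset_ball hr hz),
    fun v => (hinv v).trans (by gcongr; linarith),
    fun v => ((A : (κ → ℂ) →L[ℂ] (κ → ℂ)).le_opNorm v).trans (by gcongr; linarith), hreal,
    fun z hz a ha a' ha' => ?_, fun X hX w hw => ?_,
    th_onto h.r_pos h.hΘ h.Θ_inl h.Θ_zero h.Θ_real h.jac⟩
  · have := hb (x := z) (ball_subset_ball (min_le_right _ _) hz)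
    rw [h.Θ_zero, dist_zero_right] at this
    linarith
  · have hm : ∀ b ∈ ball (0 : κ → ℂ) (min r2 r3), R0.mk z b ∈ ball (0 : ι ⊕ κ → ℂ) r2 := fun b hb =>
      mem_ball_zero_iff.2 (((Th.norm_mk_le z b).trans_lt (max_lt (mem_ball_zero_iff.1 hz)
        (mem_ball_zero_iff.1 hb))).trans_le (min_le_left _ _))
    linarith [hl z a a' (hm a ha) (hm a' ha')]
  · have hX0 : 0 < X := one_pos.trans ((le_max_right _ _).trans_lt hX)
    have h1 := (Th.norm_aa _).trans (h.est X ((le_max_left _ _).trans_lt hX) w (hD hw))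
    have h2 : 0 ≤ X ^ (-k) := by positivity
    have h3 : |C0| * C0 ≤ C0 ^ 2 := by nlinarith [sq_abs C0]
    calc _ ≤ |C0| * ‖aa (Z (X, w) - Θ (hz X w))‖ :=
          (hinv _).trans (mul_le_mul_of_nonneg_right a6 (norm_nonneg _))
      _ ≤ |C0| * ((C0 / ((N : ℝ) + 1) + C * X ^ (-k)) / X ^ 4) := by gcongr
      _ = (|C0| * C0 / ((N : ℝ) + 1) + |C0| * C * X ^ (-k)) / X ^ 4 := by ring
      _ ≤ _ := by
          gcongr
          nlinarith [mul_le_mul_of_nonneg_left a5 a2]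

end Crest.Agent.N250.Xi

end
end

-- ▼ part N250/Top/Fin
section

/-!
# Row 250: the statement from the last open leaves (helper20)
-/

set_option autoImplicit false
open Crest.GeometryTopology.MCF

namespace Crest.Agent.N250.Top

theorem static_of (h : R.StatS) : StaticS :=
  R.staticS_of h R.impS_holds Sg.enS_holds R.startS_holds


theorem fam_of (hG : R0.GluedS) (hX : R0.XiS) : FamS :=
  R0.famS_of hG hX (Gi.T.glx_of B2.gl2Stmt) R0.chainS_holds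

theorem ls_of (hS : R.StatS) (hF : FamS) : LSStmt :=
  lsStmt_of (bootS_of TA.white) (static_of hS) lsOfS_holds hF


end Crest.Agent.N250.Top
end

-- ▼ part N250/Sg/Lag
section

/-!
# Row 250, static Gaussian estimate (helper89): `LagS`, `CoDS`
-/

set_option autoImplicit false
open MeasureTheory Set Filter Topology Metric
open scoped ContDiff InnerProductSpace
open Crest.GeometryTopology.MCF

noncomputable section

namespace Crest.Agent.N250.Sg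

theorem fv_zero (G : Mv) {f : E → ℝ} {Rf : ℝ} (h : ∀ z, Rf ≤ ‖z‖ → f z = 0) {y : E}
    (hy : Rf < ‖y‖) (t : ℝ) : G.fv f (y, t) = 0 := by
  have h1 : f =ᶠ[𝓝 y] fun _ => 0 :=
    (continuous_norm.continuousAt.eventually (lt_mem_nhds hy)).mono fun z hz => h z hz.le
  simp [Mv.fv, h1.gradient_eq, h y hy.le]

theorem lagS_holds : LagS := by
  intro n ρ₀ M Rf ε hρ hRf hε
  set K : ℝ := n * (|M| * (1 + 2 * (2 / ρ₀))) + 1 with hK
  have hK0 : 0 < K := by positivity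
  have hc : Continuous fun z : E => (gau 0 1 z)⁻¹ :=
    (A.gau_cont 0 1).inv₀ fun z => (A.gau_pos one_pos 0 z).ne'
  obtain ⟨δ, hδ, hu⟩ := Metric.uniformContinuousOn_iff_le.1
    ((isCompact_closedBall (0 : E) (Rf + 1)).uniformContinuousOn_of_continuous hc.continuousOn)
    (ε / K) (by positivity)
  refine ⟨min δ (1 / 2), by positivity, fun G m w f c x y hG hL hy hm hR hd hf hz => ?_⟩
  have hd1 := hd.trans (min_le_left _ _)
  have hd2 := hd.trans (min_le_right _ _)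
  rw [dist_eq_norm] at hd2
  have hxy := norm_le_norm_add_norm_sub' x y
  refine ⟨?_, fun hx i => fv_zero G (hz i) (by linarith) 0⟩
  have h1 := hL y hy hm
  set P := ∑ i, c i * G.fv (f i) (y, 0) with hP
  have gx := A.gau_pos one_pos 0 x
  have gy := A.gau_pos one_pos 0 y
  have h2 : |((gau 0 1 y)⁻¹ - (gau 0 1 x)⁻¹) * P| ≤ ε * ‖c‖ := by
    by_cases h : Rf < ‖y‖
    · rw [hP, Finset.sum_eq_zero fun i _ => by rw [fv_zero G (hz i) h, mul_zero], mul_zero,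
        abs_zero]
      positivity
    · have h3 := hu y (mem_closedBall_zero_iff.2 (by linarith [not_lt.1 h])) x
        (mem_closedBall_zero_iff.2 (by linarith [not_lt.1 h])) (by rwa [dist_comm])
      have h4 : |P| ≤ K * ‖c‖ := by
        refine (Finset.abs_sum_le_sum_abs _ _).trans ((Finset.sum_le_card_nsmul _ _
          (‖c‖ * (|M| * (1 + 2 * (2 / ρ₀)))) fun i _ => ?_).trans ?_)
        · rw [abs_mul]
          exact mul_le_mul (norm_le_pi_norm c i) ((Tb.abs_fv_le hG hy (by positivity)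
            (Sp.A2_le hG hy hρ hR) (hf i)).trans
            (mul_le_mul_of_nonneg_right (le_abs_self M) (by positivity))) (abs_nonneg _)
            (norm_nonneg _)
        · simp only [Finset.card_univ, Fintype.card_fin, nsmul_eq_mul, hK]
          nlinarith [norm_nonneg c]
      rw [abs_mul]
      calc _ ≤ ε / K * (K * ‖c‖) := mul_le_mul h3 h4 (abs_nonneg _) (by positivity)
        _ = _ := by field_simp
  have e : G.shr (y, 0) * gau 0 1 x - P = gau 0 1 x * ((gau 0 1 y)⁻¹ *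
      (gau 0 1 y * G.shr (y, 0) - P) + ((gau 0 1 y)⁻¹ - (gau 0 1 x)⁻¹) * P) := by
    field_simp
    ring
  rw [e, abs_mul, abs_of_pos gx, mul_comm]
  refine mul_le_mul_of_nonneg_right ((abs_add_le _ _).trans (add_le_add ?_ h2)) gx.le
  rw [abs_mul, abs_of_pos (inv_pos.2 gy), inv_mul_le_iff₀ gy, mul_comm _ w]
  exact h1

theorem coDS_holds : CoDS := by
  intro ρ₀ M hρ
  refine ⟨9 * (4 / ρ₀ + 1) + |M| * (5 + 4 / ρ₀), by positivity,
    fun G S f δ x y hG hS hf hδ hx hy hR hd hn hA => ?_⟩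
  have hδ0 : 0 < δ := dist_nonneg.trans_lt hd
  have hM := hf.nonneg
  rw [abs_of_nonneg hM]
  have hA2 := Sp.A2_le hG hx hρ hR
  have eG : G.A2 (x, 0) = ∑ a, ∑ b, G.A a b (x, 0) * G.A a b (x, 0) := by simp [Mv.A2]
  have eS : S.A2 (y, 0) = ∑ a, ∑ b, S.A a b (y, 0) * S.A a b (y, 0) := by simp [Mv.A2]
  have h1 : ∀ a b, |G.A a b (x, 0)| ≤ 2 / ρ₀ := fun a b => by
    refine abs_le_of_sq_le_sq' (le_trans ?_ hA2) (by positivity) |> abs_le.2
    rw [eG, sq]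
    exact (Finset.single_le_sum (f := fun b => G.A a b (x, 0) * G.A a b (x, 0))
      (fun _ _ => mul_self_nonneg _) (Finset.mem_univ b)).trans
      (Finset.single_le_sum (f := fun a => ∑ b, G.A a b (x, 0) * G.A a b (x, 0))
        (fun _ _ => Finset.sum_nonneg fun _ _ => mul_self_nonneg _) (Finset.mem_univ a))
  constructor
  · have h2 : ∀ a b, |G.A a b (x, 0) * G.A a b (x, 0) - S.A a b (y, 0) * S.A a b (y, 0)| ≤
        (4 / ρ₀ + 1) * δ := fun a b => by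
      rw [← sq, ← sq, sq_sub_sq, abs_mul]
      refine mul_le_mul ?_ (hA a b).le (abs_nonneg _) (by positivity)
      have h3 := abs_le.1 (h1 a b)
      have h4 := abs_lt.1 (hA a b)
      have e : 4 / ρ₀ = 2 * (2 / ρ₀) := by ring
      rw [abs_le]
      constructor <;> linarith [h3.1, h3.2, h4.1, h4.2]
    rw [eG, eS, ← Finset.sum_sub_distrib]
    refine (Finset.abs_sum_le_sum_abs _ _).trans ((Finset.sum_le_card_nsmul _ _
      (3 * ((4 / ρ₀ + 1) * δ)) fun a _ => ?_).trans ?_)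
    · rw [← Finset.sum_sub_distrib]
      refine (Finset.abs_sum_le_sum_abs _ _).trans ((Finset.sum_le_card_nsmul _ _ _
        fun b _ => h2 a b).trans (by simp))
    · simp only [Finset.card_univ, Fintype.card_fin, nsmul_eq_mul, Nat.cast_ofNat]
      have : 0 ≤ M * (5 + 4 / ρ₀) * δ := by positivity
      nlinarith
  · rw [dist_eq_norm] at hd
    have h2 := hf.l1 y (x - y)
    have h3 := hf.b2 y (x - y)
    rw [add_sub_cancel] at h2 h3
    have h4 : |⟪gradient f x - gradient f y, G.n (x, 0)⟫_ℝ| ≤ M * δ := by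
      refine (abs_real_inner_le_norm _ _).trans ?_
      rw [hG.norm_n hx, mul_one]
      exact h2.trans (by gcongr)
    have h5 : |⟪gradient f y, G.n (x, 0) - S.n (y, 0)⟫_ℝ| ≤ M * δ :=
      (abs_real_inner_le_norm _ _).trans (mul_le_mul (hf.b1 y) hn.le (norm_nonneg _) hM)
    have h6 : |f x - f y| ≤ 2 * (M * δ) := by
      have h7 : |⟪gradient f y, x - y⟫_ℝ| ≤ M * δ :=
        (abs_real_inner_le_norm _ _).trans (mul_le_mul (hf.b1 y) hd.le (norm_nonneg _) hM)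
      have h8 : M * ‖x - y‖ ^ 2 ≤ M * δ :=
        mul_le_mul_of_nonneg_left (by nlinarith [norm_nonneg (x - y)]) hM
      have := abs_add_le (f x - f y - ⟪gradient f y, x - y⟫_ℝ) ⟪gradient f y, x - y⟫_ℝ
      rw [sub_add_cancel] at this
      linarith
    have h7 : |G.H (x, 0) - S.H (y, 0)| ≤ 3 * δ := by
      simp only [Mv.H, Finset.sum_apply, ← Finset.sum_sub_distrib]
      exact (Finset.abs_sum_le_sum_abs _ _).trans ((Finset.sum_le_card_nsmul _ _ δ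
        fun a _ => (hA a a).le).trans (by simp))
    have h8 : |G.H (x, 0) * (f x - f y)| ≤ 2 / ρ₀ * (2 * (M * δ)) := by
      rw [abs_mul]
      exact mul_le_mul (Sp.abs_H_le hG hx hρ hR) h6 (abs_nonneg _) (by positivity)
    have h9 : |(G.H (x, 0) - S.H (y, 0)) * f y| ≤ 3 * δ * M := by
      rw [abs_mul]
      exact mul_le_mul h7 (hf.b0 y) (abs_nonneg _) (by positivity)
    have e : G.fv f (x, 0) - S.fv f (y, 0) = ⟪gradient f x - gradient f y, G.n (x, 0)⟫_ℝ +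
        ⟪gradient f y, G.n (x, 0) - S.n (y, 0)⟫_ℝ + G.H (x, 0) * (f x - f y) +
        (G.H (x, 0) - S.H (y, 0)) * f y := by
      simp only [Mv.fv, inner_sub_left, inner_sub_right]
      ring
    have e2 : (9 * (4 / ρ₀ + 1) + M * (5 + 4 / ρ₀)) * δ = 9 * (4 / ρ₀ + 1) * δ +
        (M * δ + M * δ + 2 / ρ₀ * (2 * (M * δ)) + 3 * δ * M) := by ring
    have : 0 ≤ 9 * (4 / ρ₀ + 1) * δ := by positivity
    rw [e, e2]
    refine le_add_of_nonneg_of_le this ((abs_add_le _ _).trans (add_le_add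
      ((abs_add_le _ _).trans (add_le_add ((abs_add_le _ _).trans (add_le_add h4 h5)) h8)) h9))

end Crest.Agent.N250.Sg

end
end

-- ▼ part N250/Tb/Tp
section

/-!
# Row 250, tube (helper50): transplanting functions from `N` to a nearby static surface `S`
along the foot point map of `N`
-/

set_option autoImplicit false
open MeasureTheory Set Filter Topology Function
open scoped ContDiff InnerProductSpace
open Crest.GeometryTopology.MCF

noncomputable section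

namespace Crest.Agent.N250.Tb

variable {S N : Mv} {t R ε ρ δ : ℝ} {W : Set E} {π : E → E} {d : E → ℝ} {x y : E} {p : ST}
  {u : ST → ℝ}

/-- the piece `S ∩ {‖y‖ ≤ R + 1}` -/
def pc (S : Mv) (R : ℝ) : Set E := S.sl 0 ∩ Metric.closedBall 0 (R + 1)

/-- the foot point map `π` of `N` is an almost isometry from `pc S R` onto a set containing
`N ∩ {‖x‖ ≤ R}` -/
structure Tp (S N : Mv) (t R ε : ℝ) (W : Set E) (π : E → E) (d : E → ℝ) : Prop where
  tub : Tub N t W π d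
  sub : pc S R ⊆ W
  inj : InjOn π (pc S R)
  onto : ∀ x ∈ N.sl t, ‖x‖ ≤ R → x ∈ π '' pc S R
  near : ∀ y ∈ pc S R, ‖π y - y‖ ≤ ε
  jac : ∀ y ∈ pc S R, |Jac N t π d S (y, 0) - 1| ≤ ε
  der : ∀ y ∈ pc S R, ∀ v, ‖fderiv ℝ π y v‖ ≤ (1 + ε) * ‖v‖

theorem Tp.mono (h : Tp S N t R ε W π d) {ε' : ℝ} (he : ε ≤ ε') : Tp S N t R ε' W π d :=
  ⟨h.tub, h.sub, h.inj, h.onto, fun y hy => (h.near y hy).trans he,
    fun y hy => (h.jac y hy).trans he, fun y hy v => (h.der y hy v).trans (by gcongr)⟩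

theorem Tub.norm_Dpr' (h : Tub N t W π d) (hN : N.Reg) (hy : y ∈ W) {κ : ℝ} (hκ : 0 ≤ κ)
    (hA : N.A2 (π y, t) ≤ κ ^ 2) (hd : |d y| * κ ≤ 1 / 2) (v : E) :
    ‖fderiv ℝ π y v‖ ≤ (1 + 2 * (|d y| * κ)) * ‖v‖ := by
  have h1 := eq_sub_of_add_eq (h.Dpr_eq hN hy v)
  have h2 := norm_sh_le hN (h.mem y hy) hκ hA (fderiv ℝ π y v)
  have h4 := norm_PL_le hN (h.mem y hy) v
  have h5 := (h.norm_Dpr hN hy hκ hA hd v).trans (mul_le_mul_of_nonneg_left h4 zero_le_two)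
  have h3 : ‖fderiv ℝ π y v‖ ≤ ‖v‖ + |d y| * (κ * (2 * ‖v‖)) := by
    conv_lhs => rw [h1]
    refine (norm_sub_le _ _).trans ?_
    rw [norm_smul, Real.norm_eq_abs]
    gcongr
    exact h2.trans (by gcongr)
  linarith

theorem Tub.jac_near (h : Tub N t W π d) (hN : N.Reg) (hS : S.Reg) (hp : p ∈ S.M) (hy : p.1 ∈ W)
    {κ a : ℝ} (hκ : 0 ≤ κ) (hA : N.A2 (π p.1, t) ≤ κ ^ 2) (hd : |d p.1| * κ ≤ 1 / 4)
    (ha : 1 - cs N t π S p ^ 2 ≤ a) : |Jac N t π d S p - 1| ≤ 2 * a + 4 * (|d p.1| * κ) := by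
  have hm := h.mem _ hy
  have c1 := h.cs_sq_le hN hS hp hy
  have c2 : |cs N t π S p| ≤ 1 := (sq_le_one_iff_abs_le_one _).1 c1
  have c3 : 1 - a ≤ |cs N t π S p| := by
    nlinarith [sq_abs (cs N t π S p), abs_nonneg (cs N t π S p)]
  have hH : |N.H (π p.1, t)| ≤ 3 / 2 * κ :=
    abs_le_of_sq_le_sq (by nlinarith [H_sq_le hN hm, sq_nonneg κ]) (by positivity)
  have hK : |N.K (π p.1, t)| ≤ κ ^ 2 / 2 := (abs_K_le hN hm).trans (by linarith)
  have b0 : 0 ≤ |d p.1| * κ := by positivity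
  have e : |dt N t π d p.1 - 1| ≤ 2 * (|d p.1| * κ) := by
    rw [dt, add_assoc, add_sub_cancel_left]
    refine (abs_add_le _ _).trans ?_
    rw [abs_mul, abs_mul, abs_pow]
    nlinarith [mul_le_mul_of_nonneg_left hH (abs_nonneg (d p.1)),
      mul_le_mul_of_nonneg_left hK (sq_nonneg |d p.1|)]
  have e' := abs_le.1 e
  have p0 : 0 < dt N t π d p.1 := by linarith
  rw [Jac, abs_of_pos p0, div_sub_one p0.ne', abs_div, abs_of_pos p0, div_le_iff₀ p0, abs_le]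
  have a0 : 0 ≤ a := by linarith
  constructor <;> nlinarith

theorem exists_tp (hS : S.Reg) (hN : N.Reg) (hρ : ρ ≤ 1) (h0 : 0 < δ) (hδ : δ ≤ ρ / 100)
    (hRS : ∀ y ∈ S.sl 0, y ∈ Metric.ball (0 : E) (R + 2) → S.Reach (y, 0) ρ)
    (hCS : ∀ y ∈ closure (S.sl 0), y ∈ Metric.ball (0 : E) (R + 2) → y ∈ S.sl 0)
    (hR : ∀ y ∈ N.sl t, y ∈ Metric.ball (0 : E) (R + 3) → N.Reach (y, t) ρ)
    (hC : ∀ y ∈ closure (N.sl t), y ∈ Metric.ball (0 : E) (R + 3) → y ∈ N.sl t)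
    (h1 : ∀ y ∈ S.sl 0, ‖y‖ < R + 2 → ∃ x ∈ N.sl t, dist y x ≤ δ)
    (h2 : ∀ x ∈ N.sl t, ‖x‖ < R + 2 → ∃ y ∈ S.sl 0, dist x y ≤ δ) :
    Tp S N t R (58 * δ / ρ) (tube N t (Metric.ball 0 (R + 3)) ρ) (pr N t) (sd N t) ∧
      ∀ y ∈ pc S R, ‖pr N t y - y‖ ≤ δ := by
  have hρ0 : 0 < ρ := by linarith
  have hT := tub hN hR Metric.isOpen_ball
  have hs : 2 * √(δ * ρ) ≤ 1 / 5 := by
    have : √(δ * ρ) ≤ 1 / 10 := Real.sqrt_le_iff.2 ⟨by norm_num, by nlinarith⟩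
    linarith
  have hB : ∀ (y : E) (r r' : ℝ), ‖y‖ + r < r' → Metric.closedBall y r ⊆ Metric.ball 0 r' :=
    fun y r r' h => Metric.closedBall_subset_ball' (by rw [dist_zero_right]; linarith)
  have T : ∀ w ∈ S.sl 0, w ∈ Metric.ball (0 : E) (R + 2) →
      w ∈ tube N t (Metric.ball 0 (R + 3)) ρ ∧ |sd N t w| ≤ δ := fun w a b => by
    rw [mem_ball_zero_iff] at b
    obtain ⟨x, hx, k⟩ := h1 w a b
    have m := mem_tube hN hC hx (by linarith : dist w x < ρ) (hB _ _ _ (by linarith))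
    exact ⟨m, (abs_sd_le hN hR m hx).trans k⟩
  obtain ⟨g1, g2⟩ := gr_tube hN hR hS Metric.isOpen_ball hRS hCS h0 hδ T
  have P1 : ∀ y ∈ pc S R, Metric.closedBall y (2 * √(δ * ρ)) ⊆ Metric.ball 0 (R + 2) :=
    fun y hy => hB _ _ _ (by linarith [mem_closedBall_zero_iff.1 hy.2])
  have P2 : ∀ y ∈ pc S R, y ∈ tube N t (Metric.ball 0 (R + 3)) ρ ∧ |sd N t y| ≤ δ := fun y hy =>
    T y hy.1 (P1 y hy (Metric.mem_closedBall_self (by positivity)))
  have P3 : ∀ y ∈ pc S R, N.A2 (pr N t y, t) ≤ (2 / ρ) ^ 2 := fun y hy =>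
    (reachAS_holds N hN _ (pr_mem hN hR (P2 y hy).1) ρ hρ0 (pr_reach hN hR (P2 y hy).1)).2.trans
      (by rw [div_pow]; gcongr; norm_num)
  have P4 : ∀ y ∈ pc S R, |sd N t y| * (2 / ρ) ≤ 2 * (δ / ρ) := fun y hy =>
    (mul_le_mul_of_nonneg_right (P2 y hy).2 (by positivity)).trans_eq (by ring)
  have P5 : ∀ y ∈ pc S R, ‖pr N t y - y‖ ≤ δ := fun y hy => by
    rw [← dist_eq_norm, dist_comm, dist_pr hN hR (P2 y hy).1]; exact (P2 y hy).2
  have q1 : δ / ρ ≤ 1 / 100 := by rw [div_le_iff₀ hρ0]; linarith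
  have q2 : δ ≤ δ / ρ := by rw [le_div_iff₀ hρ0]; nlinarith
  rw [mul_div_assoc] at *
  refine ⟨⟨hT, fun y hy => (P2 y hy).1, g2.mono fun y hy => And.intro hy.1 (P1 y hy), fun x hx hxR => ?_,
    fun y hy => (P5 y hy).trans (by linarith), fun y hy => ?_, fun y hy v => ?_⟩, P5⟩
  · obtain ⟨y, a, b, c, e⟩ := surj hN Metric.isOpen_ball hR hC hS Metric.isOpen_ball hRS hCS h0 hδ
      hx (hB _ _ _ (by linarith)) (hB _ _ _ (by linarith)) fun w hw hw' =>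
        h2 w hw (mem_ball_zero_iff.1 (hB _ _ _ (by linarith) hw'))
    refine ⟨y, ⟨a, mem_closedBall_zero_iff.2 ?_⟩, c⟩
    have := dist_pr hN hR b
    rw [c, dist_eq_norm] at this
    linarith [norm_le_insert' y x]
  · have := hT.jac_near hN hS (p := (y, 0)) hy.1 (P2 y hy).1 (by positivity) (P3 y hy)
      ((P4 y hy).trans (by linarith)) (g1 y hy.1 (P1 y hy))
    linarith [P4 y hy]
  · refine (hT.norm_Dpr' hN (P2 y hy).1 (by positivity) (P3 y hy)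
      ((P4 y hy).trans (by linarith)) v).trans (mul_le_mul_of_nonneg_right ?_ (norm_nonneg _))
    linarith [P4 y hy]

/-- the transplanted function -/
def tp (π : E → E) (t R : ℝ) (u : ST → ℝ) (p : ST) : ℝ := if ‖p.1‖ < R + 1 then u (π p.1, t) else 0

theorem D_zero (hN : N.Reg) (hu : N.Sm u) (h0 : ∀ x ∈ N.sl t, R < ‖x‖ → u (x, t) = 0)
    (hx : x ∈ N.sl t) (hR : R < ‖x‖) (a : Fin 3) : N.D a u (x, t) = 0 := by
  refine ((MP.maxS_holds N hN u hu (x, t) hx).1 ?_).1 a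
  have : ∀ᶠ q : ST in 𝓝 (x, t), R < ‖q.1‖ :=
    continuous_fst.norm.continuousAt.eventually (lt_mem_nhds hR)
  filter_upwards [self_mem_nhdsWithin, nhdsWithin_le_nhds this] with q a b
  obtain ⟨z, s⟩ := q
  obtain rfl : s = t := a.2
  rw [h0 x hx hR, h0 z a.1 b]

theorem isCompact_pc (hC : IsClosed S.M) : IsCompact (pc S R) :=
  (isCompact_closedBall _ _).inter_left (hC.preimage (Continuous.prodMk_left 0))

namespace Tp

variable (h : Tp S N t R ε W π d)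
include h

theorem mem (hy : y ∈ pc S R) : π y ∈ N.sl t := h.tub.mem y (h.sub hy)

theorem cont (hy : ContinuousOn u N.M) : ContinuousOn (fun y => u (π y, t)) (pc S R) :=
  hy.comp ((h.tub.spr.continuousOn.mono h.sub).prodMk continuousOn_const) fun _ k => h.mem k

/-- change of variables -/
theorem int (hS : S.Reg) (hN : N.Reg) (hC : IsClosed S.M) {g : E → ℝ}
    (hg : ∀ x ∈ N.sl t, R < ‖x‖ → g x = 0) :
    ∫ x, g x ∂N.mu t = ∫ y in pc S R, Jac N t π d S (y, 0) * g (π y) ∂S.mu 0 := by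
  have hm := (isCompact_pc (R := R) hC).measurableSet
  have hs : pc S R ⊆ S.sl 0 ∩ W := fun y hy => ⟨hy.1, h.sub hy⟩
  rw [← h.tub.int_J hN hS hm hs h.inj]
  refine (setIntegral_eq_integral_of_ae_compl_eq_zero ?_).symm
  exact (Hu.ae_sl hN t).mono fun x hx hn => hg x hx (not_le.1 fun k => hn (h.onto x hx k))

variable (hε : ε ≤ 1 / 2) (hst : S.Static) (h0 : ∀ x ∈ N.sl t, R < ‖x‖ → u (x, t) = 0)
include hε hst h0

theorem tp_zero (hp : p ∈ S.M) (hR : R + 1 / 2 < ‖p.1‖) : tp π t R u p = 0 := by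
  rw [tp]
  split_ifs with k
  · have m : p.1 ∈ pc S R := ⟨(hst.mem p.1 p.2).1 hp, mem_closedBall_zero_iff.2 k.le⟩
    refine h0 _ (h.mem m) ?_
    linarith [h.near _ m, norm_le_insert (π p.1) p.1]
  · rfl

theorem tp_ev (hR : R + 1 / 2 < ‖p.1‖) : tp π t R u =ᶠ[𝓝[S.M] p] fun _ => 0 := by
  have : ∀ᶠ q : ST in 𝓝 p, R + 1 / 2 < ‖q.1‖ :=
    continuous_fst.norm.continuousAt.eventually (lt_mem_nhds hR)
  filter_upwards [self_mem_nhdsWithin, nhdsWithin_le_nhds this] with q a b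
    using h.tp_zero hε hst h0 a b

omit h hε hst h0 in
theorem tp_ev' (hR : ‖p.1‖ < R + 1) : tp π t R u =ᶠ[𝓝 p] fun q => u (π q.1, t) := by
  have : ∀ᶠ q : ST in 𝓝 p, ‖q.1‖ < R + 1 :=
    continuous_fst.norm.continuousAt.eventually (gt_mem_nhds hR)
  exact this.mono fun q b => if_pos b

theorem tp_eq (hy : y ∈ pc S R) : tp π t R u (y, 0) = u (π y, t) := by
  by_cases k : ‖y‖ < R + 1
  · exact if_pos k
  · rw [h.tp_zero hε hst h0 (p := (y, 0)) hy.1 (by linarith [not_lt.1 k]), h0 _ (h.mem hy)]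
    linarith [h.near _ hy, norm_le_insert (π y) y, not_lt.1 k]

theorem tp_sm (hu : N.Sm u) : S.Sm (tp π t R u) := fun p hp => by
  by_cases k : ‖p.1‖ < R + 1
  · have m : p.1 ∈ pc S R := ⟨(hst.mem p.1 p.2).1 hp, mem_closedBall_zero_iff.2 k.le⟩
    exact ((((h.tub.sm_comp hu).contDiffAt (h.tub.op.mem_nhds (h.sub m))).comp p
      contDiffAt_fst).congr_of_eventuallyEq (tp_ev' k)).contDiffWithinAt
  · exact contDiffWithinAt_const.congr_of_eventuallyEq_of_mem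
      (h.tp_ev hε hst h0 (by linarith [not_lt.1 k])) hp

omit h hε hst h0 in
theorem tp_cs (hC : IsClosed S.M) : S.CS (tp π t R u) {0} := by
  refine ⟨pc S R ×ˢ {0}, (isCompact_pc hC).prod isCompact_singleton, ?_, ?_⟩
  · rintro ⟨y, s⟩ ⟨a, b⟩
    obtain rfl : s = 0 := b
    exact a.1
  · rintro ⟨y, s⟩ a b c
    obtain rfl : s = 0 := b
    exact if_neg fun k => c ⟨⟨a, mem_closedBall_zero_iff.2 k.le⟩, rfl⟩

theorem gam_zero (hS : S.Reg) (hp : p ∈ S.M) (hR : R + 1 / 2 < ‖p.1‖) :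
    S.gam (tp π t R u) (tp π t R u) p = 0 := by
  simp [Mv.gam_apply, Mv.D_congr hp (h.tp_ev hε hst h0 hR), hS.D_const hp]

theorem gam_le (hS : S.Reg) (hN : N.Reg) (hu : N.Sm u) (hy : y ∈ pc S R) :
    S.gam (tp π t R u) (tp π t R u) (y, 0) ≤ (1 + ε) ^ 2 * N.gam u u (π y, t) := by
  by_cases k : ‖y‖ < R + 1
  swap
  · rw [h.gam_zero hε hst h0 hS (p := (y, 0)) hy.1 (by linarith [not_lt.1 k])]
    exact mul_nonneg (sq_nonneg _) (Mv.gam_self_nonneg _ _)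
  have hW := h.sub hy
  set w : E := WithLp.toLp 2 fun b => N.D b u (π y, t) with hw
  have d1 := HasFDerivAt.comp ((y, 0) : ST) (f := Prod.fst)
    (h.tub.hasF hW (hu.diffW (h.mem hy))) hasFDerivAt_fst
  have e : ∀ a, S.D a (tp π t R u) (y, 0) = S.PL (y, 0) (fderiv ℝ π y w) a := fun a => by
    rw [Mv.D_apply, hS.td_eq hy.1 (d1.congr_of_eventuallyEq (tp_ev' k)).hasFDerivWithinAt
      (hS.tg_PL hy.1 _), ← PL_coord, h.tub.Dpr_symm hN hW, real_inner_comm, inner_eq_sum]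
    exact Mv.td_perp u (h.tub.n_Dpr hN hW _)
  have e2 : ‖w‖ ^ 2 = N.gam u u (π y, t) := by
    rw [EuclideanSpace.real_norm_sq_eq, Mv.gam_apply]; simp [hw, sq]
  rw [Mv.gam_apply (F := S)]
  simp only [e]
  rw [← inner_eq_sum, real_inner_self_eq_norm_sq, ← e2, ← mul_pow]
  exact pow_le_pow_left₀ (norm_nonneg _) ((norm_PL_le hS hy.1 _).trans (h.der y hy w)) 2

end Tp

end Crest.Agent.N250.Tb

end
end

-- ▼ part N250/Tb/Co
section

/-!
# Row 250, tube (helper50): coercivity of the second variation on nearby surfaces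
-/

set_option autoImplicit false
open MeasureTheory Set Filter Topology Function
open scoped ContDiff InnerProductSpace
open Crest.GeometryTopology.MCF

noncomputable section

namespace Crest.Agent.N250.Tb

theorem sq_int_le {ν : Measure E} [IsFiniteMeasure ν] {a : E → ℝ} (h1 : Integrable a ν)
    (h2 : Integrable (fun x => a x ^ 2) ν) :
    (∫ x, a x ∂ν) ^ 2 ≤ ν.real univ * ∫ x, a x ^ 2 ∂ν := by
  have := discrim_le_zero (a := ν.real univ) (b := -2 * ∫ x, a x ∂ν) (c := ∫ x, a x ^ 2 ∂ν)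
    fun l => by
      have e : ∫ x, (a x - l) ^ 2 ∂ν =
          ν.real univ * (l * l) + -2 * (∫ x, a x ∂ν) * l + ∫ x, a x ^ 2 ∂ν := by
        have : ∀ x, (a x - l) ^ 2 = l * l + (-2 * l) * a x + a x ^ 2 := fun x => by ring
        simp only [this]
        rw [integral_add (f := fun x => l * l + -2 * l * a x)
          ((integrable_const _).add (h1.const_mul _)) h2, integral_add (integrable_const _) (h1.const_mul _), integral_const, integral_const_mul,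
          smul_eq_mul]
        ring
      rw [← e]; exact integral_nonneg fun _ => sq_nonneg _
  rw [discrim] at this
  linarith

theorem gau_near {x y : E} {r δ ε : ℝ} (hx : ‖x‖ ≤ r) (hy : ‖y‖ ≤ r) (hd : ‖x - y‖ ≤ δ)
    (h : δ * r ≤ ε) (h1 : ε ≤ 1) : |gau 0 1 y - gau 0 1 x| ≤ ε * gau 0 1 x := by
  have e : gau 0 1 y - gau 0 1 x = (Real.exp ((‖x‖ ^ 2 - ‖y‖ ^ 2) / 4) - 1) * gau 0 1 x := by
    simp only [gau, sub_zero, mul_one]
    rw [sub_mul, one_mul, mul_left_comm, ← Real.exp_add]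
    congr 3; ring
  have p : 0 < gau 0 1 x := by unfold gau; positivity
  have b : |(‖x‖ ^ 2 - ‖y‖ ^ 2) / 4| ≤ ε / 2 := by
    have a1 := (abs_norm_sub_norm_le x y).trans hd
    rw [sq_sub_sq, abs_div, abs_mul, abs_of_nonneg (by positivity : 0 ≤ ‖x‖ + ‖y‖),
      abs_of_pos (by norm_num : (0 : ℝ) < 4)]
    nlinarith [mul_le_mul (add_le_add hx hy) a1 (abs_nonneg _) (by linarith [norm_nonneg x])]
  rw [e, abs_mul, abs_of_pos p]
  exact mul_le_mul_of_nonneg_right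
    ((Real.abs_exp_sub_one_le (b.trans (by linarith))).trans (by linarith)) p.le

theorem gau_low {x : E} {r : ℝ} (hx : ‖x‖ ≤ r) :
    (4 * Real.pi)⁻¹ * Real.exp (-r ^ 2 / 4) ≤ gau 0 1 x := by
  simp only [gau, sub_zero, mul_one]
  gcongr

theorem co_alg {k a L η n I X Q P κ : ℝ} (hk : 0 < k) (ha : k * a = 1) (hL : 0 ≤ L) (hX : 0 ≤ X)
    (hP : 0 ≤ P) (h1 : k / 2 * I ≤ Q + η * X + a * (2 * P + 2 * (n * (η * X))))
    (h2 : X ≤ Q + L * I) (hs : 2 * L * a * (η * (1 + 2 * n * a)) ≤ 1 / 2) (h0 : 0 < κ)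
    (h3 : κ * (2 * (1 + 2 * L * a)) ≤ 1) (h4 : κ ≤ k / 2) : κ * X ≤ Q + κ⁻¹ * P := by
  have a0 : 0 < a := by by_contra h; nlinarith
  have e1 : I ≤ 2 * a * (Q + η * X + a * (2 * P + 2 * (n * (η * X)))) := by
    have := mul_le_mul_of_nonneg_left h1 (by positivity : 0 ≤ 2 * a)
    have e : 2 * a * (k / 2 * I) = I := by linear_combination I * ha
    linarith
  have e2 : X / 2 ≤ (1 + 2 * L * a) * Q + 4 * L * a ^ 2 * P := by
    nlinarith [mul_le_mul_of_nonneg_left e1 hL, mul_le_mul_of_nonneg_right hs hX]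
  have e3 : 2 * a ≤ κ⁻¹ := by
    rw [le_inv_comm₀ (by positivity) h0, ← one_div, le_div_iff₀ (by positivity)]; nlinarith
  have M : 0 < 1 + 2 * L * a := by positivity
  refine le_of_mul_le_mul_left ?_ M
  nlinarith [mul_le_mul_of_nonneg_right h3 hX, mul_le_mul_of_nonneg_right e3 hP,
    mul_nonneg (mul_nonneg hL a0.le) (mul_nonneg (sub_nonneg.2 e3) hP), mul_nonneg a0.le hP]

theorem co_pt {ε η K J gx gy U Γ Γ' q A : ℝ} (hε : ε ≤ 1 / 10) (hη : (3 * K + 6) * ε ≤ η)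
    (hJ : |J - 1| ≤ ε) (hg : |gy - gx| ≤ ε * gx) (g0 : 0 < gx) (hU : 0 ≤ U) (hΓ : 0 ≤ Γ)
    (hΓ' : 0 ≤ Γ') (h : Γ' ≤ (1 + ε) ^ 2 * Γ) (hq : |q - A| ≤ ε) (hK : |q| ≤ K) :
    1 / 2 * (J * (U * gx)) ≤ (U + Γ') * gy ∧
    (Γ' - (A + 1 / 2) * U) * gy ≤ J * ((Γ - (q + 1 / 2) * U) * gx) + η * (J * ((U + Γ) * gx)) ∧
    J * ((U + Γ) * gx) ≤ J * ((Γ - (q + 1 / 2) * U) * gx) + (K + 3 / 2) * (J * (U * gx)) := by
  have e0 := (abs_nonneg _).trans hJ
  have K0 := (abs_nonneg _).trans hK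
  obtain ⟨J1, J2⟩ := abs_le.1 hJ
  obtain ⟨g1, g2⟩ := abs_le.1 hg
  have η0 : 6 * ε ≤ η := by nlinarith
  have gy0 : 9 / 10 * gx ≤ gy := by nlinarith
  refine ⟨?_, ?_, ?_⟩
  · nlinarith [mul_nonneg hU g0.le, mul_nonneg hΓ' (by linarith : 0 ≤ gy),
      mul_le_mul_of_nonneg_left gy0 hU, mul_le_mul_of_nonneg_right J2 (mul_nonneg hU g0.le)]
  · have a1 : (1 + ε) ^ 2 * gy ≤ J * (1 + η) * gx := by
      have b1 : (1 + ε) ^ 2 * (1 + ε) ≤ J * (1 + η) := by nlinarith [mul_nonneg e0 e0]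
      nlinarith [mul_le_mul_of_nonneg_left g2 (sq_nonneg (1 + ε)),
        mul_le_mul_of_nonneg_right b1 g0.le]
    have a2 : (q + 1 / 2) * (J * gx) - (A + 1 / 2) * gy ≤ η * (J * gx) := by
      have b1 : |J * gx - gy| ≤ 2 * ε * gx := by rw [abs_le]; constructor <;> nlinarith
      have b2 : (q + 1 / 2) * (J * gx - gy) ≤ (K + 1 / 2) * (2 * ε * gx) :=
        (le_abs_self _).trans (by
          rw [abs_mul]
          exact mul_le_mul ((abs_add_le _ _).trans (by norm_num [hK])) b1 (abs_nonneg _)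
            (by linarith))
      have b3 : (q - A) * gy ≤ ε * (11 / 10 * gx) :=
        mul_le_mul (abs_le.1 hq).2 (by nlinarith) (by linarith) e0
      have b4 : η * (9 / 10 * gx) ≤ η * (J * gx) :=
        mul_le_mul_of_nonneg_left (by nlinarith) (by linarith)
      nlinarith [mul_le_mul_of_nonneg_right hη g0.le, mul_nonneg e0 g0.le,
        mul_nonneg K0 (mul_nonneg e0 g0.le)]
    nlinarith [mul_le_mul_of_nonneg_right h (by linarith : 0 ≤ gy), mul_le_mul_of_nonneg_left a1 hΓ,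
      mul_le_mul_of_nonneg_left a2 hU]
  · nlinarith [mul_nonneg (sub_nonneg.2 (abs_le.1 hK).2)
      (mul_nonneg (by linarith : 0 ≤ J) (mul_nonneg hU g0.le))]

variable {S N : Mv} {t R ε η K k : ℝ} {W : Set E} {π : E → E} {d : E → ℝ} {u : ST → ℝ}

theorem mu_pc_lt (hS : S.Reg) (hC : IsClosed S.M) (R : ℝ) : S.mu 0 (pc S R) < ⊤ := by
  obtain ⟨C, h⟩ := muFinS_holds S hS (pc S R ×ˢ {0}) ((isCompact_pc hC).prod isCompact_singleton)
    (by rintro ⟨y, s⟩ ⟨a, b⟩; obtain rfl : s = 0 := b; exact a.1)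
  refine lt_of_le_of_lt (measure_mono fun y hy => ?_)
    ((h 0 0 (|R| + 2) (by positivity)).trans_lt ENNReal.ofReal_lt_top)
  exact ⟨⟨hy, rfl⟩, mem_ball_zero_iff.2 (by
    linarith [mem_closedBall_zero_iff.1 hy.2, le_abs_self R])⟩

theorem int_pc (hS : S.Reg) (hC : IsClosed S.M) {g : E → ℝ} (hg : ContinuousOn g (pc S R)) :
    IntegrableOn g (pc S R) (S.mu 0) :=
  hg.integrableOn_of_subset_isCompact (isCompact_pc hC) (isCompact_pc hC).measurableSet Subset.rfl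
    (mu_pc_lt hS hC R).ne

theorem int_eq_pc (hS : S.Reg) {g : E → ℝ} (hg : ∀ y ∈ S.sl 0, R + 1 < ‖y‖ → g y = 0) :
    ∫ y, g y ∂S.mu 0 = ∫ y in pc S R, g y ∂S.mu 0 :=
  (setIntegral_eq_integral_of_ae_compl_eq_zero ((Hu.ae_sl hS 0).mono fun y hy hn =>
    hg y hy (not_le.1 fun k => hn (And.intro hy (mem_closedBall_zero_iff.2 k))))).symm

theorem cont_pc {g : ST → ℝ} (hg : ContinuousOn g S.M) :
    ContinuousOn (fun y => g (y, 0)) (pc S R) :=
  hg.comp (Continuous.prodMk_left 0).continuousOn fun _ h => h.1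

theorem cont_gau : Continuous (gau 0 1) := by unfold gau; fun_prop

theorem cont_fv0 (hS : S.Reg) {f : E → ℝ} (hf : ContDiff ℝ ∞ f) : ContinuousOn (S.fv f) S.M := by
  have h1 : Continuous (gradient f) :=
    (InnerProductSpace.toDual ℝ E).symm.continuous.comp (hf.continuous_fderiv (by simp))
  exact ((h1.comp continuous_fst).continuousOn.inner hS.sm_n.continuousOn).add
    (hS.sm_H.continuousOn.mul (hf.continuous.comp continuous_fst).continuousOn)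

theorem co_core {n : ℕ} {f : Fin n → E → ℝ} {q : E → ℝ} {ψ : Fin n → E → ℝ} {κ : ℝ}
    (hS : S.IsShr) (hf : ∀ i, ContDiff ℝ ∞ (f i)) (hk : 0 < k)
    (hc : ∀ u : ST → ℝ, S.Sm u → S.CS u {0} →
      k * ∫ x, (u (x, 0) ^ 2 + S.gam u u (x, 0)) * gau 0 1 x ∂S.mu 0 ≤
        ∫ x, (S.gam u u (x, 0) - (S.A2 (x, 0) + 1 / 2) * u (x, 0) ^ 2) * gau 0 1 x ∂S.mu 0 +
          k⁻¹ * ∑ i, (∫ x, S.fv (f i) (x, 0) * u (x, 0) ∂S.mu 0) ^ 2)
    (hN : N.Reg) (h : Tp S N t R ε W π d) (hε : ε ≤ 1 / 10) (hη : (3 * K + 6) * ε ≤ η)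
    (hK : 0 ≤ K) (hη0 : 0 ≤ η)
    (hs : 2 * (K + 3 / 2) * k⁻¹ * (η * (1 + 2 * n * k⁻¹)) ≤ 1 / 2) (h0 : 0 < κ)
    (h3 : κ * (2 * (1 + 2 * (K + 3 / 2) * k⁻¹)) ≤ 1) (h4 : κ ≤ k / 2)
    (hq : ContinuousOn (fun y => q (π y)) (pc S R))
    (hψ : ∀ i, ContinuousOn (fun y => ψ i (π y)) (pc S R))
    (hp : ∀ y ∈ pc S R, |gau 0 1 y - gau 0 1 (π y)| ≤ ε * gau 0 1 (π y) ∧
      |q (π y) - S.A2 (y, 0)| ≤ ε ∧ |q (π y)| ≤ K ∧ ∀ i, (S.mu 0).real (pc S R) *
        (S.fv (f i) (y, 0) - Jac N t π d S (y, 0) * ψ i (π y)) ^ 2 ≤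
          η * (Jac N t π d S (y, 0) * gau 0 1 (π y)))
    (hu : N.Sm u) (hz : ∀ x ∈ N.sl t, R < ‖x‖ → u (x, t) = 0) :
    κ * ∫ x, (u (x, t) ^ 2 + N.gam u u (x, t)) * gau 0 1 x ∂N.mu t ≤
      ∫ x, (N.gam u u (x, t) - (q x + 1 / 2) * u (x, t) ^ 2) * gau 0 1 x ∂N.mu t +
        κ⁻¹ * ∑ i, (∫ x, ψ i x * u (x, t) ∂N.mu t) ^ 2 := by
  have hR := hS.reg
  have hC := hS.closed
  have e2 : ε ≤ 1 / 2 := by linarith
  have hm := (isCompact_pc (R := R) hC).measurableSet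
  have gz : ∀ x ∈ N.sl t, R < ‖x‖ → N.gam u u (x, t) = 0 := fun x a b => by
    simp [Mv.gam_apply, D_zero hN hu hz a b]
  have sm := h.tp_sm e2 hS.st hz hu
  have key := hc _ sm (Tp.tp_cs hC)
  have z1 : ∀ y ∈ S.sl 0, R + 1 < ‖y‖ → tp π t R u (y, 0) = 0 := fun y a b =>
    h.tp_zero e2 hS.st hz (p := (y, 0)) a (by linarith)
  have z2 : ∀ y ∈ S.sl 0, R + 1 < ‖y‖ → S.gam (tp π t R u) (tp π t R u) (y, 0) = 0 :=
    fun y a b => h.gam_zero e2 hS.st hz hR (p := (y, 0)) a (by linarith)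
  have k3 : ∀ i, ∫ x, S.fv (f i) (x, 0) * tp π t R u (x, 0) ∂S.mu 0 =
      ∫ y in pc S R, S.fv (f i) (y, 0) * u (π y, t) ∂S.mu 0 := fun i => by
    rw [int_eq_pc (R := R) hR fun y a b => by rw [z1 y a b, mul_zero]]
    exact setIntegral_congr_fun hm fun y hy => by simp only [h.tp_eq e2 hS.st hz hy]
  rw [int_eq_pc (R := R) hR fun y a b => by simp [z1 y a b, z2 y a b],
    int_eq_pc (R := R) (g := fun x => (_ - _) * _) hR fun y a b => by simp [z1 y a b, z2 y a b]]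
    at key
  simp only [k3] at key
  have k4 : ∀ i, ∫ x, ψ i x * u (x, t) ∂N.mu t =
      ∫ y in pc S R, Jac N t π d S (y, 0) * (ψ i (π y) * u (π y, t)) ∂S.mu 0 := fun i =>
    h.int hR hN hC fun x a b => by rw [hz x a b, mul_zero]
  rw [h.int hR hN hC fun x a b => by simp [hz x a b, gz x a b],
    h.int (g := fun x => (_ - _) * _) hR hN hC fun x a b => by simp [hz x a b, gz x a b]]
  simp only [k4]
  have cJ : ContinuousOn (fun y => Jac N t π d S (y, 0)) (pc S R) :=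
    (h.tub.cont_Jac hN hR 0).mono fun y hy => ⟨hy.1, h.sub hy⟩
  have cu := h.cont hu.continuousOn
  have cΓ := h.cont (hN.sm_gam hu hu).continuousOn
  have cg : ContinuousOn (fun y => gau 0 1 (π y)) (pc S R) :=
    cont_gau.comp_continuousOn (h.tub.spr.continuousOn.mono h.sub)
  have ct := cont_pc (R := R) sm.continuousOn
  have cΓ' := cont_pc (R := R) (hR.sm_gam sm sm).continuousOn
  have cA := cont_pc (R := R) hR.sm_A2.continuousOn
  have iI := int_pc hR hC (cJ.mul ((cu.pow 2).mul cg))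
  have iX := int_pc hR hC (cJ.mul (((cu.pow 2).add cΓ).mul cg))
  have iQ := int_pc hR hC (cJ.mul ((cΓ.sub ((hq.add (continuousOn_const (c := 1 / 2))).mul
    (cu.pow 2))).mul cg))
  have pt := fun y (hy : y ∈ pc S R) => co_pt hε hη (h.jac y hy) (hp y hy).1
    (by unfold gau; positivity) (sq_nonneg (u (π y, t))) (Mv.gam_self_nonneg u (π y, t))
    (Mv.gam_self_nonneg _ _) (h.gam_le e2 hS.st hz hR hN hu hy) (hp y hy).2.1 (hp y hy).2.2.1
  have gp : ∀ x, 0 ≤ gau 0 1 x := fun x => by unfold gau; positivity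
  have a1 := setIntegral_mono_on (iI.const_mul (1 / 2))
    (int_pc hR hC (((ct.pow 2).add cΓ').mul cont_gau.continuousOn)) hm fun y hy => by
      simpa only [Pi.mul_apply, Pi.add_apply, Pi.pow_apply, h.tp_eq e2 hS.st hz hy]
        using (pt y hy).1
  have a2 := setIntegral_mono_on (int_pc hR hC ((cΓ'.sub ((cA.add
    (continuousOn_const (c := 1 / 2))).mul (ct.pow 2))).mul cont_gau.continuousOn))
    (iQ.add (iX.const_mul η)) hm fun y hy => by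
      simpa only [Pi.mul_apply, Pi.add_apply, Pi.pow_apply, Pi.sub_apply, h.tp_eq e2 hS.st hz hy]
        using (pt y hy).2.1
  have a3 := setIntegral_mono_on iX (iQ.add (iI.const_mul (K + 3 / 2))) hm fun y hy => (pt y hy).2.2
  rw [integral_add' iQ (iX.const_mul η), integral_const_mul] at a2
  rw [integral_add' iQ (iI.const_mul _), integral_const_mul] at a3
  rw [integral_const_mul] at a1
  simp only [Pi.mul_apply, Pi.add_apply, Pi.pow_apply, Pi.sub_apply] at a1 a2 a3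
  have a4 : ∀ i, (∫ y in pc S R, S.fv (f i) (y, 0) * u (π y, t) ∂S.mu 0) ^ 2 ≤
      2 * (∫ y in pc S R, Jac N t π d S (y, 0) * (ψ i (π y) * u (π y, t)) ∂S.mu 0) ^ 2 +
      2 * (η * ∫ y in pc S R, Jac N t π d S (y, 0) *
        ((u (π y, t) ^ 2 + N.gam u u (π y, t)) * gau 0 1 (π y)) ∂S.mu 0) := fun i => by
    have cf := cont_pc (R := R) (cont_fv0 hR (hf i))
    have ce := (cf.mul cu).sub (cJ.mul ((hψ i).mul cu))
    have : IsFiniteMeasure ((S.mu 0).restrict (pc S R)) :=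
      isFiniteMeasure_restrict.2 (mu_pc_lt hR hC R).ne
    have b1 := sq_int_le (int_pc hR hC ce) (int_pc hR hC (ce.pow 2))
    rw [integral_sub' (int_pc hR hC (cf.mul cu)) (int_pc hR hC (cJ.mul ((hψ i).mul cu))),
      measureReal_restrict_apply_univ, ← integral_const_mul] at b1
    have b2 := b1.trans (setIntegral_mono_on ((int_pc hR hC (ce.pow 2)).const_mul _)
      (iX.const_mul η) hm fun y hy => by
        simp only [Pi.mul_apply, Pi.add_apply, Pi.pow_apply, Pi.sub_apply]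
        nlinarith [mul_le_mul_of_nonneg_right ((hp y hy).2.2.2 i) (sq_nonneg (u (π y, t))),
          mul_nonneg hη0 (mul_nonneg (Tub.Jac_nonneg (S := N) (t := t) (pr := π) (sd := d) (N := S)
            (y, 0)) (mul_nonneg (Mv.gam_self_nonneg (F := N) u (π y, t)) (gp (π y))))])
    rw [integral_const_mul] at b2
    simp only [Pi.mul_apply, Pi.add_apply, Pi.pow_apply] at b2
    nlinarith [sq_nonneg ((∫ y in pc S R, S.fv (f i) (y, 0) * u (π y, t) ∂S.mu 0) -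
      2 * ∫ y in pc S R, Jac N t π d S (y, 0) * (ψ i (π y) * u (π y, t)) ∂S.mu 0)]
  have a5 := Finset.sum_le_sum fun i (_ : i ∈ Finset.univ) => a4 i
  rw [Finset.sum_add_distrib, ← Finset.mul_sum, Finset.sum_const, Finset.card_univ,
    Fintype.card_fin, nsmul_eq_mul] at a5
  refine co_alg (n := n) hk (mul_inv_cancel₀ hk.ne') (by linarith) ?_
    (Finset.sum_nonneg fun _ _ => sq_nonneg _) ?_ a3 hs h0 h3 h4
  · exact setIntegral_nonneg hm fun y _ => mul_nonneg (Tub.Jac_nonneg _)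
      (mul_nonneg (add_nonneg (sq_nonneg _) (Mv.gam_self_nonneg _ _)) (gp _))
  · nlinarith [mul_le_mul_of_nonneg_left a1 hk.le, mul_le_mul_of_nonneg_left a5 (inv_pos.2 hk).le]

/-- CT: the coercivity of `Cons` passes to surfaces with reach that are close to `S` -/
theorem coer {n : ℕ} {f : Fin n → E → ℝ} (hS : S.IsShr) (hf : Cons S f) {K : ℝ} (hK : 0 ≤ K) :
    ∃ κ : ℝ, 0 < κ ∧ ∀ R c : ℝ, 0 < c → ∃ δ : ℝ, 0 < δ ∧
      ∀ (N : Mv) (t : ℝ) (q : E → ℝ) (ψ : Fin n → E → ℝ), N.Reg →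
      (∀ y ∈ closure (N.sl t), y ∈ Metric.ball (0 : E) (R + 3) → y ∈ N.sl t) →
      (∀ y ∈ N.sl t, y ∈ Metric.ball (0 : E) (R + 3) → N.Reach (y, t) c) →
      (∀ y ∈ S.sl 0, ‖y‖ < R + 2 → ∃ x ∈ N.sl t, dist y x ≤ δ) →
      (∀ x ∈ N.sl t, ‖x‖ < R + 2 → |q x| ≤ K ∧ ∃ y ∈ S.sl 0, dist x y ≤ δ ∧
        |q x - S.A2 (y, 0)| ≤ δ ∧ ∀ i, |ψ i x - S.fv (f i) (y, 0)| ≤ δ) →
      ContinuousOn q (N.sl t ∩ Metric.ball 0 (R + 2)) →
      (∀ i, ContinuousOn (ψ i) (N.sl t ∩ Metric.ball 0 (R + 2))) →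
      ∀ u : ST → ℝ, N.Sm u → (∀ x ∈ N.sl t, R < ‖x‖ → u (x, t) = 0) →
        κ * ∫ x, (u (x, t) ^ 2 + N.gam u u (x, t)) * gau 0 1 x ∂N.mu t ≤
          ∫ x, (N.gam u u (x, t) - (q x + 1 / 2) * u (x, t) ^ 2) * gau 0 1 x ∂N.mu t +
            κ⁻¹ * ∑ i, (∫ x, ψ i x * u (x, t) ∂N.mu t) ^ 2 := by
  obtain ⟨k, hk, hc⟩ := hf.coer
  have hR := hS.reg
  have hC := hS.closed
  refine ⟨min (2 * (1 + 2 * (K + 3 / 2) * k⁻¹))⁻¹ (k / 2), by positivity, fun R c hc0 => ?_⟩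
  obtain ⟨η, η0, hs⟩ : ∃ η : ℝ, 0 < η ∧
      2 * (K + 3 / 2) * k⁻¹ * (η * (1 + 2 * n * k⁻¹)) ≤ 1 / 2 :=
    ⟨(4 * (K + 3 / 2) * k⁻¹ * (1 + 2 * n * k⁻¹))⁻¹, by positivity, le_of_eq (by field_simp; ring)⟩
  have hK2 := isCompact_pc (S := S) (R := R + 1) hC
  have cΦ : ContinuousOn (fun y => ((S.A2 (y, 0), fun i => S.fv (f i) (y, 0)) : ℝ × (Fin n → ℝ)))
      (pc S (R + 1)) := (cont_pc hR.sm_A2.continuousOn).prodMk
        (continuousOn_pi.2 fun i => cont_pc (cont_fv0 hR (hf.sm i)))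
  obtain ⟨M, hM⟩ := hK2.exists_bound_of_continuousOn cΦ
  set m := (S.mu 0).real (pc S R) with hm
  have m0 : 0 ≤ m := measureReal_nonneg
  set g0 := (4 * Real.pi)⁻¹ * Real.exp (-(|R| + 2) ^ 2 / 4) with hg0
  have g0p : 0 < g0 := by positivity
  obtain ⟨ε, ε0, ε1, ε2, ε3⟩ : ∃ ε : ℝ, 0 < ε ∧ ε ≤ 1 / 10 ∧ (3 * K + 6) * ε ≤ η ∧
      (m + 1) * (|M| + 2) ^ 2 * ε ≤ η * (g0 / 2) :=
    ⟨min (1 / 10) (min (η / (3 * K + 6)) (η * (g0 / 2) / ((m + 1) * (|M| + 2) ^ 2))),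
      by positivity, min_le_left _ _,
      (le_div_iff₀' (by positivity)).1 ((min_le_right _ _).trans (min_le_left _ _)),
      (le_div_iff₀' (by positivity)).1 ((min_le_right _ _).trans (min_le_right _ _))⟩
  obtain ⟨σ, σ0, hσ⟩ := Metric.uniformContinuousOn_iff_le.1
    (hK2.uniformContinuousOn_of_continuous cΦ) (ε / 2) (by positivity)
  obtain ⟨ρ₀, ρ0, hρ⟩ := reachPosS_holds S hR univ (Metric.closedBall 0 (R + 2) ×ˢ {0}) isOpen_univ
    (fun p hp _ => hC.closure_subset hp) ((isCompact_closedBall _ _).prod isCompact_singleton)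
    (subset_univ _)
  obtain ⟨ρ, p0, p1, p2, p3⟩ : ∃ ρ : ℝ, 0 < ρ ∧ ρ ≤ 1 ∧ ρ ≤ ρ₀ ∧ ρ ≤ c :=
    ⟨min 1 (min ρ₀ c), by positivity, min_le_left _ _, (min_le_right _ _).trans (min_le_left _ _),
      (min_le_right _ _).trans (min_le_right _ _)⟩
  obtain ⟨δ, δ0, δ1, δ2, δ3⟩ : ∃ δ : ℝ, 0 < δ ∧ δ ≤ ε * ρ / 58 ∧ δ ≤ σ / 2 ∧ δ * (|R| + 2) ≤ ε :=
    ⟨min (ε * ρ / 58) (min (σ / 2) (ε / (|R| + 2))), by positivity, min_le_left _ _,
      (min_le_right _ _).trans (min_le_left _ _),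
      (le_div_iff₀ (by positivity)).1 ((min_le_right _ _).trans (min_le_right _ _))⟩
  have δ4 : δ ≤ ε / 2 := by nlinarith
  refine ⟨δ, δ0, fun N t q ψ hN hCN hRN h1 h2 cq cψ u hu hz => ?_⟩
  obtain ⟨T, T2⟩ := exists_tp (ρ := ρ) hR hN p1 δ0 (by nlinarith)
    (fun y a b => Rch.reach_mono (hR.norm_n (p := (y, 0)) a)
      (hρ _ ⟨a, Metric.ball_subset_closedBall b, rfl⟩) p2)
    (fun y a _ => (hC.preimage (Continuous.prodMk_left 0)).closure_subset a)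
    (fun y a b => Rch.reach_mono (hN.norm_n (p := (y, t)) a) (hRN y a b) p3) hCN h1
    fun x a b => let ⟨_, y, c, e, _⟩ := h2 x a b; ⟨y, c, e⟩
  replace T := T.mono (ε' := ε) (by rw [div_le_iff₀ p0]; linarith)
  have nπ : ∀ y ∈ pc S R, ‖pr N t y‖ ≤ R + 1 + δ := fun y hy => by
    linarith [mem_closedBall_zero_iff.1 hy.2, T2 y hy, norm_le_insert' (pr N t y) y]
  have mπ : MapsTo (pr N t) (pc S R) (N.sl t ∩ Metric.ball 0 (R + 2)) := fun y hy =>
    ⟨T.mem hy, mem_ball_zero_iff.2 (by linarith [nπ y hy])⟩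
  have cπ := T.tub.spr.continuousOn.mono T.sub
  refine co_core hS hf.sm hk hc hN T ε1 ε2 hK η0.le hs (by positivity)
    ((le_inv_mul_iff₀' (by positivity)).1 (by simp)) (min_le_right _ _) (cq.comp cπ mπ)
    (fun i => (cψ i).comp cπ mπ) (fun y hy => ?_) hu hz
  have ny := mem_closedBall_zero_iff.1 hy.2
  have nx : ‖pr N t y‖ ≤ |R| + 2 := by linarith [nπ y hy, le_abs_self R]
  obtain ⟨b1, z, hz, b2, b3, b4⟩ := h2 _ (T.mem hy) (by linarith [nπ y hy])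
  rw [dist_eq_norm] at b2
  have mz : z ∈ pc S (R + 1) :=
    ⟨hz, mem_closedBall_zero_iff.2 (by linarith [nπ y hy, norm_le_insert (pr N t y) z])⟩
  have my : y ∈ pc S (R + 1) := ⟨hy.1, mem_closedBall_zero_iff.2 (by linarith)⟩
  have c1 := hσ z mz y my (by
    have := dist_triangle_left z y (pr N t y)
    rw [dist_eq_norm (pr N t y), dist_eq_norm (pr N t y)] at this
    linarith [T2 y hy])
  rw [Prod.dist_eq, max_le_iff, Real.dist_eq, dist_pi_le_iff (by positivity)] at c1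
  refine ⟨gau_near nx (by linarith [le_abs_self R]) (T2 y hy) δ3 (by linarith),
    (abs_sub_le _ _ _).trans (by linarith [c1.1]), b1, fun i => ?_⟩
  have c2 := c1.2 i
  rw [Real.dist_eq] at c2
  have c3 : |S.fv (f i) (z, 0)| ≤ |M| :=
    ((norm_le_pi_norm (fun i => S.fv (f i) (z, 0)) i).trans
      ((norm_snd_le ((S.A2 (z, 0), fun i => S.fv (f i) (z, 0)) : ℝ × (Fin n → ℝ))).trans
        (hM z mz))).trans (le_abs_self M)
  have c4 := T.jac y hy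
  have c5 := gau_low nx
  have c6 : |ψ i (pr N t y)| ≤ |M| + 1 := by
    linarith [abs_sub_abs_le_abs_sub (ψ i (pr N t y)) (S.fv (f i) (z, 0)), b4 i]
  generalize Jac N t (pr N t) (sd N t) S (y, 0) = J at c4 ⊢
  have c7 : |S.fv (f i) (y, 0) - J * ψ i (pr N t y)| ≤ ε * (|M| + 2) := by
    have : S.fv (f i) (y, 0) - J * ψ i (pr N t y) = -(S.fv (f i) (z, 0) - S.fv (f i) (y, 0)) -
      (ψ i (pr N t y) - S.fv (f i) (z, 0)) - (J - 1) * ψ i (pr N t y) := by ring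
    rw [this]
    refine (abs_sub _ _).trans ?_
    rw [abs_mul]
    linarith [abs_sub (-(S.fv (f i) (z, 0) - S.fv (f i) (y, 0)))
      (ψ i (pr N t y) - S.fv (f i) (z, 0)), abs_neg (S.fv (f i) (z, 0) - S.fv (f i) (y, 0)), b4 i,
      mul_le_mul c4 c6 (abs_nonneg _) ε0.le]
  have c8 := pow_le_pow_left₀ (abs_nonneg _) c7 2
  rw [sq_abs] at c8
  have c9 : g0 / 2 ≤ J * gau 0 1 (pr N t y) := by nlinarith [abs_le.1 c4]
  calc _ ≤ (m + 1) * (ε * (|M| + 2)) ^ 2 := by gcongr; linarith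
    _ = (m + 1) * (|M| + 2) ^ 2 * ε * ε := by ring
    _ ≤ η * (g0 / 2) * 1 := by gcongr; linarith
    _ ≤ _ := by rw [mul_one]; gcongr

end Crest.Agent.N250.Tb

end
end

-- ▼ part N250/Sg/Stat
section

/-!
# Row 250, static Gaussian estimate (helper9), part 4: assembly of `R.StatS`
-/

set_option autoImplicit false
open MeasureTheory Set Filter Topology Metric
open scoped ContDiff InnerProductSpace
open Crest.GeometryTopology.MCF

noncomputable section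

namespace Crest.Agent.N250.Sg

open Tb

/-- the bound for the multipliers -/
def DualS : Prop := ∀ (S : Mv) (Λ ρ₀ ρ₁ : ℝ) (n : ℕ) (f : Fin n → E → ℝ), S.IsShr →
  Cons S f → 0 < ρ₀ → ρ₀ ≤ 1 → 0 < ρ₁ →
  ∃ δ R₁ C : ℝ, 0 < δ ∧ 0 < C ∧ ∀ (N G : Mv) (m r R' r' δ' w M : ℝ) (c : Fin n → ℝ),
    R.Ctx N Λ G m ρ₀ → 0 < δ' → δ' ≤ δ → R₁ ≤ r → r + 3 ≤ m → R₁ ≤ R' → R₁ ≤ r' →
    R.Nr N G m ρ₀ r ρ₁ δ' → Near G S R' δ' → R.Hd N S R' δ' → R.Lag G f c m w →
    N.dis ≤ ENNReal.ofReal (w ^ 2) → 0 < w → 0 ≤ M → R.H1 N G r' ≤ ENNReal.ofReal (M ^ 2) →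
    ‖c‖ ≤ C * (w + M)

/-- the part of `N` in the ball of radius `r` -/
def rs (N : Mv) (r : ℝ) : Mv := N.res (ball 0 r ×ˢ univ)

variable {N G : Mv} {Λ m ρ₀ ρ₁ r δ : ℝ}

theorem op_rs (r : ℝ) : IsOpen ((ball 0 r ×ˢ univ : Set ST)) := isOpen_ball.prod isOpen_univ

theorem rs_reg (h : N.Reg) (r : ℝ) : (rs N r).Reg := Tr.res_reg (op_rs r) h

theorem rs_mem {x : E} {t : ℝ} : (x, t) ∈ (rs N r).M ↔ (x, t) ∈ N.M ∧ ‖x‖ < r := by
  simp [rs, Mv.res]

theorem rs_mu (N : Mv) (r t : ℝ) : (rs N r).mu t = (N.mu t).restrict (ball 0 r) := by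
  rw [rs, Tr.res_mu (op_rs r)]; congr 1; ext x; simp

theorem rs_shr {x : E} {t : ℝ} (hx : ‖x‖ < r) : (rs N r).shr (x, t) = N.shr (x, t) := by
  rw [Mv.shr, Mv.shr, rs, Tr.res_H (op_rs r) (by simpa using hx)]; rfl

theorem rs_tube (hc : R.Ctx N Λ G m ρ₀) (hN : R.Nr N G m ρ₀ r ρ₁ δ) {p : ST}
    (hp : p ∈ (rs N r).M) : p.1 ∈ tube G 0 (ball 0 m) ρ₀ :=
  have h := (rs_mem (x := p.1) (t := p.2)).1 hp
  (hN p.1 ((hc.st.mem _ _).1 h.1) h.2).2.1

theorem rs_sm (hc : R.Ctx N Λ G m ρ₀) (hN : R.Nr N G m ρ₀ r ρ₁ δ) : (rs N r).Sm (ht (sd G 0)) :=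
  fun _ hp => ((ctx_tub hc).ht_at (rs_tube hc hN hp)).contDiffWithinAt

theorem rs_cont (hc : R.Ctx N Λ G m ρ₀) (hN : R.Nr N G m ρ₀ r ρ₁ δ) {g : ST → ℝ}
    (hg : ContinuousOn g G.M) : ContinuousOn (fun p : ST => g (pr G 0 p.1, 0)) (rs N r).M :=
  ((ctx_tub hc).cont_pull hg).comp continuous_fst.continuousOn fun _ hp => rs_tube hc hN hp

theorem rs_tf (hc : R.Ctx N Λ G m ρ₀) (hr : 1 ≤ r) : Tf (rs N r) 0 (cut2 r) := by
  refine ⟨(contDiff_cut2 r).contDiffOn, (N.sl 0 ∩ closedBall 0 (r - 1 / 2)) ×ˢ {0},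
    ((isCompact_closedBall _ _).inter_left (ctx_closed hc)).prod isCompact_singleton, ?_, ?_⟩
  · rintro ⟨x, t⟩ ⟨⟨h1, h2⟩, rfl⟩
    exact rs_mem.2 ⟨h1, by have := mem_closedBall_zero_iff.1 h2; linarith⟩
  · rintro ⟨x, t⟩ hp rfl hK
    refine cut2_zero hr (not_lt.1 fun h => hK ⟨⟨(rs_mem.1 hp).1, ?_⟩, rfl⟩)
    exact mem_closedBall_zero_iff.2 h.le

theorem IG_ofReal {F : Mv} {t : ℝ} {g : ST → ℝ} (hF : F.Reg) (hg : Ig F t g)
    (h0 : ∀ x, (x, t) ∈ F.M → 0 ≤ g (x, t)) :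
    ENNReal.ofReal (IG F t g) = ∫⁻ x, ENNReal.ofReal (g (x, t) * gau 0 1 x) ∂F.mu t :=
  ofReal_integral_eq_lintegral_ofReal hg ((Hu.ae_sl hF t).mono fun x hx =>
    mul_nonneg (h0 x hx) (Gau.gau_pos 0 one_pos x).le)

theorem H1_le (hc : R.Ctx N Λ G m ρ₀) (hN : R.Nr N G m ρ₀ r ρ₁ δ) (hr : 1 ≤ r) {s : ℝ}
    (hs : s ≤ r - 1) : R.H1 N G s ≤
      ENNReal.ofReal (IG (rs N r) 0 (e1 (rs N r) fun p => cut2 r p * ht (sd G 0) p)) := by
  have hF := rs_reg hc.reg r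
  have hχ := rs_tf hc hr
  rw [IG_ofReal hF ((hχ.mul hF (rs_sm hc hN)).ig_e1 hF) fun _ _ => e1_nonneg _ _ _, rs_mu]
  refine le_trans (le_of_eq (lintegral_congr_ae ?_))
    (lintegral_mono_set (ball_subset_ball (by linarith : s ≤ r)))
  filter_upwards [ae_restrict_of_ae (Hu.ae_sl hc.reg 0), ae_restrict_mem measurableSet_ball]
    with x hx hb
  have h1 : ‖x‖ < r - 1 := (mem_ball_zero_iff.1 hb).trans_le hs
  have hp : (x, (0 : ℝ)) ∈ (rs N r).M := rs_mem.2 ⟨hx, by linarith⟩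
  have h2 := gam_cut2_zero hF hp hr (Or.inl h1)
  have h3 := (rs N r).gam_sq_le (cut2 r) (ht (sd G 0)) (x, 0)
  rw [h2, zero_mul] at h3
  rw [e1, gam_mul hF hp hχ.sm (rs_sm hc hN), h2, pow_eq_zero_iff (two_ne_zero) |>.1
    (le_antisymm h3 (sq_nonneg _)), cut2_one hr (p := (x, 0)) h1.le,
    (ctx_tub hc).gam_ht hc.greg hF hp (rs_tube hc hN hp)]
  simp only [one_mul, one_pow, mul_zero, add_zero]
  rfl

theorem phi_le (hc : R.Ctx N Λ G m ρ₀) (hr : 1 ≤ r) {w : ℝ}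
    (hd : N.dis ≤ ENNReal.ofReal (w ^ 2)) :
    IG (rs N r) 0 (fun p => cut2 r p ^ 2 * (rs N r).shr p ^ 2) ≤ w ^ 2 := by
  have hF := rs_reg hc.reg r
  refine (ENNReal.ofReal_le_ofReal_iff (sq_nonneg w)).1 (le_trans ?_ hd)
  rw [IG_ofReal hF (((rs_tf hc hr).sq hF).ig_mul hF (g := fun p => (rs N r).shr p ^ 2)
    (hF.sm_shr.continuousOn.pow 2)) fun _ _ => by positivity, rs_mu]
  refine le_trans (lintegral_mono_ae ?_) (setLIntegral_le_lintegral (ball 0 r) _)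
  filter_upwards [ae_restrict_mem measurableSet_ball] with x hb
  rw [rs_shr (mem_ball_zero_iff.1 hb)]
  refine ENNReal.ofReal_le_ofReal (mul_le_mul_of_nonneg_right ?_ (Gau.gau_pos 0 one_pos x).le)
  exact mul_le_of_le_one_left (sq_nonneg _) (cut2_sq_le _ _)

theorem rat_of (hc : R.Ctx N Λ G m ρ₀) : Gau.Rat (N.mu 0) (max Λ 0) := fun y s hs =>
  (hc.ar 0 y s hs).trans (ENNReal.ofReal_le_ofReal (by gcongr; exact le_max_left _ _))

theorem one_le (hc : R.Ctx N Λ G m ρ₀) (hr : 1 ≤ r) :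
    IG (rs N r) 0 (fun p => cut2 r p ^ 2) ≤ Gau.C0 * max Λ 0 := by
  have hF := rs_reg hc.reg r
  have i1 := Gau.int_gau (le_max_right _ _) (rat_of hc) 0 one_pos
  have i2 : Integrable (fun x => cut2 r (x, 0) ^ 2 * gau 0 1 x) ((rs N r).mu 0) :=
    (rs_tf hc hr).ig_sq hF
  refine le_trans ?_ (Gau.integral_gau_le (le_max_right _ _) (rat_of hc) 0 one_pos)
  rw [IG]
  rw [rs_mu] at i2 ⊢
  exact (integral_mono i2 i1.integrableOn fun x => mul_le_of_le_one_left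
    (Gau.gau_pos 0 one_pos x).le (cut2_sq_le _ _)).trans
    (setIntegral_le_integral i1 (Eventually.of_forall fun x => (Gau.gau_pos 0 one_pos x).le))

theorem tail_le (hc : R.Ctx N Λ G m ρ₀) (hN : R.Nr N G m ρ₀ r ρ₁ δ) (hδ : δ ≤ 1) (hr : 3 ≤ r)
    {w : ℝ} (hw : Real.exp (-(r - 2) ^ 2 / 8) ≤ w) :
    IG (rs N r) 0 (fun p => ht (sd G 0) p ^ 2 * (rs N r).gam (cut2 r) (cut2 r) p) ≤
      32 * cutK * max Λ 0 * w ^ 2 := by
  have hF := rs_reg hc.reg r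
  have hχ := rs_tf hc (by linarith : 1 ≤ r)
  have hK := cutK_nonneg
  have hL : 0 ≤ max Λ 0 := le_max_right _ _
  have hm : (rs N r).mu 0 univ ≤ ENNReal.ofReal (max Λ 0 * r ^ 2) := by
    rw [rs_mu, Measure.restrict_apply_univ]; exact rat_of hc 0 r (by linarith)
  have : IsFiniteMeasure ((rs N r).mu 0) := ⟨hm.trans_lt ENNReal.ofReal_lt_top⟩
  have h1 : IG (rs N r) 0 (fun p => ht (sd G 0) p ^ 2 * (rs N r).gam (cut2 r) (cut2 r) p) ≤
      ∫ _x, cutK * Real.exp (-(r - 1) ^ 2 / 4) ∂(rs N r).mu 0 := by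
    refine integral_mono_ae ((hχ.gam hF hχ.sm).ig_mul' hF (g := fun p => ht (sd G 0) p ^ 2)
      ((rs_sm hc hN).continuousOn.pow 2)) (integrable_const _) ((Hu.ae_sl hF 0).mono fun x hx => ?_)
    by_cases h : ‖x‖ < r - 1
    · simp only [gam_cut2_zero hF hx (by linarith) (Or.inl h), mul_zero, zero_mul]; positivity
    have a1 := (hN x (rs_mem.1 hx).1 (rs_mem.1 hx).2).2.2.trans hδ
    have a2 : ht (sd G 0) (x, 0) ^ 2 ≤ 1 := (sq_le_one_iff_abs_le_one _).2 a1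
    have a3 := gam_cut2_le hF hx (r := r) (by linarith)
    have a4 : gau 0 1 x ≤ Real.exp (-(r - 1) ^ 2 / 4) := by
      refine (Gw_eq (x, 0)).le.trans ((mul_le_of_le_one_left (Real.exp_pos _).le
        (inv_le_one_of_one_le₀ (by linarith [Real.pi_gt_three]))).trans (Real.exp_le_exp.2 ?_))
      have : (r - 1) ^ 2 ≤ ‖x‖ ^ 2 := pow_le_pow_left₀ (by linarith) (not_lt.1 h) 2
      simp only; linarith
    exact mul_le_mul ((mul_le_of_le_one_left (Mv.gam_self_nonneg _ _) a2).trans a3) a4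
      (Gau.gau_pos 0 one_pos x).le hK
  rw [integral_const, smul_eq_mul] at h1
  have h2 : ((rs N r).mu 0).real univ ≤ max Λ 0 * r ^ 2 :=
    ENNReal.toReal_le_of_le_ofReal (by positivity) hm
  have h3 : r ^ 2 * Real.exp (-(r - 1) ^ 2 / 4) ≤ 32 * Real.exp (-(r - 2) ^ 2 / 8) ^ 2 := by
    have e : Real.exp (-(r - 2) ^ 2 / 8) ^ 2 =
        Real.exp ((2 * r - 3) / 4) * Real.exp (-(r - 1) ^ 2 / 4) := by
      rw [← Real.exp_add, sq, ← Real.exp_add]; congr 1; ring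
    have := Real.quadratic_le_exp_of_nonneg (show 0 ≤ (2 * r - 3) / 4 by linarith)
    rw [e, ← mul_assoc]
    exact mul_le_mul_of_nonneg_right (by nlinarith) (Real.exp_pos _).le
  have h4 : Real.exp (-(r - 2) ^ 2 / 8) ^ 2 ≤ w ^ 2 := pow_le_pow_left₀ (Real.exp_pos _).le hw 2
  calc _ ≤ max Λ 0 * r ^ 2 * (cutK * Real.exp (-(r - 1) ^ 2 / 4)) :=
        h1.trans (mul_le_mul_of_nonneg_right h2 (by positivity))
    _ = cutK * max Λ 0 * (r ^ 2 * Real.exp (-(r - 1) ^ 2 / 4)) := by ring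
    _ ≤ cutK * max Λ 0 * (32 * w ^ 2) := mul_le_mul_of_nonneg_left (by linarith) (by positivity)
    _ = _ := by ring

theorem exists_rad {n : ℕ} {f : Fin n → E → ℝ} (h : ∀ i, HasCompactSupport (f i)) :
    ∃ Rf : ℝ, 0 < Rf ∧ ∀ i y, Rf ≤ ‖y‖ → f i y = 0 := by
  obtain ⟨Rf, h0, hR⟩ := (isCompact_iUnion fun i => (h i).isCompact).isBounded.subset_ball_lt 0 0
  refine ⟨Rf, h0, fun i y hy => image_eq_zero_of_notMem_tsupport fun hm => ?_⟩
  exact absurd (mem_ball_zero_iff.1 (hR (mem_iUnion.2 ⟨i, hm⟩))) (not_lt.2 hy)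

theorem C2_zero {M : ℝ} (hM : 0 ≤ M) : C2 (fun _ => 0) M := by
  have e : gradient (fun _ : E => (0 : ℝ)) = fun _ => 0 := gradient_fun_const' _
  refine ⟨continuous_const, e ▸ continuous_const, fun _ => by simpa using hM,
    fun _ => by simpa [e] using hM, fun _ _ => ?_, fun _ _ => ?_⟩ <;> simp [e] <;> positivity

set_option maxHeartbeats 800000 in
/-- coercivity on `N` -/
theorem coerN (hCo : CoDS) {S : Mv} {n : ℕ} {f : Fin n → E → ℝ} (hS : S.IsShr) (hf : Cons S f)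
    (h0 : 0 < ρ₀) (h1 : 0 < ρ₁) {Rf : ℝ} : ∃ k κ δ₀ R₁ : ℝ, 0 < k ∧ 0 < κ ∧ 0 < δ₀ ∧
    ∀ (N G : Mv) (Λ m r R' δ : ℝ) (u : ST → ℝ), R.Ctx N Λ G m ρ₀ → 0 < δ → δ ≤ δ₀ → R₁ ≤ R' →
      R₁ ≤ r →      R.Nr N G m ρ₀ r ρ₁ δ → Near G S R' δ → R.Hd N S R' δ → Tf (rs N r) 0 u →
      (∀ x, (x, 0) ∈ (rs N r).M → Rf ≤ ‖x‖ → ∀ i, G.fv (f i) (pr G 0 x, 0) = 0) →
      k * IG (rs N r) 0 (e1 (rs N r) u) ≤ IG (rs N r) 0 ((rs N r).gam u u) -
        IG (rs N r) 0 (fun p => u p ^ 2 * (G.A2 (pr G 0 p.1, 0) + 1 / 2)) +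
        κ⁻¹ * ∑ i, (∫ x, G.fv (f i) (pr G 0 x, 0) * u (x, 0) ∂(rs N r).mu 0) ^ 2 +
        IG (rs N r) 0 fun p => u p ^ 2 * (rs N r).shr p ^ 2 := by
  obtain ⟨M, hM0, hM⟩ := exists_C2_fin hf.sm hf.cs
  obtain ⟨C, hC, hD⟩ := hCo ρ₀ M h0
  obtain ⟨κ, hκ, hco⟩ := coer hS hf (K := (2 / ρ₀) ^ 2) (sq_nonneg _)
  obtain ⟨θ, R₀, k, hθ, hR₀, hk, huc⟩ := uc_of_loc hκ (K := (2 / ρ₀) ^ 2 + 1 / 2) (by positivity)
  obtain ⟨R, hR1, hR2⟩ : ∃ R, R₀ ≤ R ∧ Rf ≤ R := ⟨max R₀ Rf, le_max_left _ _, le_max_right _ _⟩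
  obtain ⟨δ₁, hδ₁, hc1⟩ := hco (R + 1) ρ₁ h1
  refine ⟨k, κ, min 1 (δ₁ / (C + 2)), R + 4, hk, hκ, by positivity,
    fun N G Λ m r R' δ u hc d0 hδ hR' hr hN hG hH hu hψ => ?_⟩
  have hF := rs_reg hc.reg r
  have d1 : δ ≤ 1 := hδ.trans (min_le_left _ _)
  have d2 : δ * (C + 2) ≤ δ₁ := (le_div_iff₀ (by positivity)).1 (hδ.trans (min_le_right _ _))
  have d3 : C * δ + 2 * δ ≤ δ₁ := by linarith
  have d4 : 0 < C * δ := mul_pos hC d0
  have cq := rs_cont hc hN hc.greg.sm_A2.continuousOn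
  have hw : Tf (rs N r) 0 fun p => cut (R + 1) p * u p := hu.mul' hF (sm_cut _ _)
  refine huc (rs N r) 0 R (fun p => G.A2 (pr G 0 p.1, 0) + 1 / 2) u _ hF hR1
    (cq.add continuousOn_const) hu (fun x hx => ?_) (by positivity) ?_
  · linarith [ctx_A2 hc h0 (rs_tube hc hN hx)]
  have hT : ∀ x ∈ (rs N r).sl 0 ∩ ball 0 (R + 1 + 2), x ∈ tube G 0 (ball 0 m) ρ₀ :=
    fun x hx => rs_tube hc hN (p := (x, 0)) hx.1
  have key := hc1 (rs N r) 0 (fun x => G.A2 (pr G 0 x, 0)) (fun i x => G.fv (f i) (pr G 0 x, 0)) hF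
    (fun y hy hb => rs_mem.2 ⟨(ctx_closed hc).closure_subset
      (closure_mono (show (rs N r).sl 0 ⊆ N.sl 0 from fun z hz => (rs_mem.1 hz).1) hy), by linarith [mem_ball_zero_iff.1 hb]⟩)
    (fun y hy _ z hz => (hN y (rs_mem.1 hy).1 (rs_mem.1 hy).2).1 z (rs_mem.1 hz).1)
    (fun y hy hb => by
      obtain ⟨x, a1, a2⟩ := hH.2 y hy (by linarith)
      have a3 := norm_le_norm_add_norm_sub' x y
      rw [← dist_eq_norm] at a3
      refine ⟨x, rs_mem.2 ⟨a1, by linarith⟩, ?_⟩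
      rw [dist_comm]; linarith)
    (fun x hx hb => by
      have a0 := rs_tube hc hN (p := (x, 0)) hx
      have a1 := (hN x (rs_mem.1 hx).1 (rs_mem.1 hx).2).2.2
      rw [← dist_pr hc.greg (ctx_reach hc) a0] at a1
      have a2 := pr_mem hc.greg (ctx_reach hc) a0
      have a3 := norm_le_norm_add_norm_sub' (pr G 0 x) x
      rw [← dist_eq_norm, dist_comm] at a3
      obtain ⟨y, b1, b2, b3, b4⟩ := hG.1 _ a2 (by linarith)
      have b5 := fun i => hD G S (f i) δ _ y hc.greg hS.reg (hM i) d1 a2 b1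
        (pr_reach hc.greg (ctx_reach hc) a0) b2 b3 b4
      have hg := (hD G S _ δ _ y hc.greg hS.reg (C2_zero hM0) d1 a2 b1
          (pr_reach hc.greg (ctx_reach hc) a0) b2 b3 b4).1
      refine ⟨by rw [abs_of_nonneg (Mv.A2_nonneg _)]; exact ctx_A2 hc h0 a0, y, b1, ?_, ?_,
        fun i => (b5 i).2.trans (by linarith)⟩
      · linarith [dist_triangle x (pr G 0 x) y]
      · exact hg.trans (by linarith))
    (((ctx_tub hc).cont_pull hc.greg.sm_A2.continuousOn).mono hT)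
    (fun i => ((ctx_tub hc).cont_pull (cont_fv0 hc.greg (hf.sm i))).mono hT)
    _ hw.sm (fun x _ hx => mul_eq_zero_of_left
      (cut_zero (r := R + 1) (p := (x, 0)) (by linarith) hx.le) _)
  have e1' : ∀ i, ∫ x, G.fv (f i) (pr G 0 x, 0) * (cut (R + 1) (x, 0) * u (x, 0)) ∂(rs N r).mu 0 =
      ∫ x, G.fv (f i) (pr G 0 x, 0) * u (x, 0) ∂(rs N r).mu 0 := fun i =>
    Hu.int_congr hF fun x hx => by
      by_cases h : Rf ≤ ‖x‖
      · rw [hψ x hx h i, zero_mul, zero_mul]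
      · rw [cut_one (r := R + 1) (p := (x, 0)) (by linarith)
          (by simp only; linarith [not_le.1 h]), one_mul]
  simp only [e1'] at key
  have e2 : IG (rs N r) 0 (fun p => (rs N r).gam (fun p => cut (R + 1) p * u p)
      (fun p => cut (R + 1) p * u p) p - (cut (R + 1) p * u p) ^ 2 *
        (G.A2 (pr G 0 p.1, 0) + 1 / 2)) = _ :=
    IG_sub (hw.ig_gam hF hw.sm) ((hw.sq hF).ig_mul hF (cq.add continuousOn_const))
  have e3 := IG_e1 hF hw
  have n2 := IG_nonneg (t := 0) hF (f := (rs N r).gam (fun p => cut (R + 1) p * u p)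
    fun p => cut (R + 1) p * u p) fun _ _ => Mv.gam_self_nonneg _ _
  have n3 := IG_nonneg (t := 0) hF (f := e1 (rs N r) fun p => cut (R + 1) p * u p)
    fun _ _ => e1_nonneg _ _ _
  rw [← e2]
  simp only [mul_comm (_ + 1 / 2 : ℝ)] at key
  change κ * IG (rs N r) 0 (e1 (rs N r) fun p => cut (R + 1) p * u p) ≤ IG (rs N r) 0 (fun p =>
    (rs N r).gam (fun p => cut (R + 1) p * u p) (fun p => cut (R + 1) p * u p) p -
      (cut (R + 1) p * u p) ^ 2 * (G.A2 (pr G 0 p.1, 0) + 1 / 2)) + _ at key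
  rw [e3, mul_add] at key
  linarith [mul_nonneg hθ.le n3, mul_nonneg hκ.le n2]

set_option maxHeartbeats 1600000 in
theorem statS_of (hMom : MomS) (hLag : LagS) (hCo : CoDS) (hDual : DualS) : R.StatS := by
  intro S Λ ρ₀ ρ₁ n f hS _ hf h0 h01 h1
  obtain ⟨M, hM0, hM⟩ := exists_C2_fin hf.sm hf.cs
  obtain ⟨Rf, hRf, hf0⟩ := exists_rad hf.cs
  obtain ⟨k, κ, δ₁, R₁, hk, hκ, hδ₁, hco⟩ := coerN hCo hS hf h0 h1 (Rf := Rf + 1)
  obtain ⟨δ₂, R₂, Cd, hδ₂, hCd, hdu⟩ := hDual S Λ ρ₀ ρ₁ n f hS hf h0 h01 h1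
  obtain ⟨D, hD⟩ : ∃ D, D = 2 * Cd ^ 2 := ⟨_, rfl⟩
  have D0 : 0 ≤ D := by rw [hD]; positivity
  obtain ⟨A, hA⟩ : ∃ A, A = Gau.C0 * max Λ 0 := ⟨_, rfl⟩
  have L0' : 0 ≤ max Λ 0 := le_max_right _ _
  have A0 : 0 ≤ A := by rw [hA]; exact mul_nonneg Gau.C0_nonneg L0'
  obtain ⟨K, hK⟩ : ∃ K, K = 6 * (2 / ρ₀) ^ 3 + 2 * (2 / ρ₀) := ⟨_, rfl⟩
  have K0 : 0 < K := by rw [hK]; positivity
  obtain ⟨l, hl, s1⟩ : ∃ l : ℝ, 0 < l ∧ n * l * D ≤ k / 16 :=
    ⟨k / (16 * (n * D + 1)), by positivity, by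
      rw [mul_right_comm, ← mul_div_assoc, div_le_div_iff₀ (by positivity) (by positivity)]
      nlinarith⟩
  obtain ⟨σ, hσ, s2⟩ : ∃ σ : ℝ, 0 < σ ∧ n * σ * (1 / l + κ⁻¹) ≤ k / 16 :=
    ⟨k / (16 * (n * (1 / l + κ⁻¹) + 1)), by positivity, by
      rw [mul_right_comm, ← mul_div_assoc, div_le_div_iff₀ (by positivity) (by positivity)]
      nlinarith⟩
  obtain ⟨ε, hε, s4⟩ : ∃ ε : ℝ, 0 < ε ∧ 4 / k * (ε ^ 2 * D * A) ≤ k / 16 :=
    ⟨k / (8 * (D * A + 1)), by positivity, by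
      have e : 4 / k * ((k / (8 * (D * A + 1))) ^ 2 * D * A) =
          k / 16 * (D * A / (D * A + 1) ^ 2) := by field_simp; ring
      rw [e]
      refine mul_le_of_le_one_right (by positivity) ((div_le_one (by positivity)).2 ?_)
      nlinarith [mul_nonneg D0 A0]⟩
  obtain ⟨δ₃, hδ₃, hmo⟩ := hMom Λ ρ₀ ρ₁ M Rf σ h0 h01 h1 hRf hσ
  obtain ⟨δ₄, hδ₄, hla⟩ := hLag n ρ₀ M Rf ε h0 hRf hε
  obtain ⟨δ, hδ, d1, d2, d3, d4, d5, d6⟩ : ∃ δ : ℝ, 0 < δ ∧ δ ≤ δ₁ ∧ δ ≤ δ₂ ∧ δ ≤ δ₃ ∧ δ ≤ δ₄ ∧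
      δ ≤ ρ₀ / 4 ∧ δ ≤ min k 1 / (32 * K) := by
    have := lt_min hk one_pos
    refine ⟨min (min (min δ₁ δ₂) (min δ₃ δ₄)) (min (ρ₀ / 4) (min k 1 / (32 * K))), by positivity,
      ?_, ?_, ?_, ?_, ?_, ?_⟩ <;> simp
  rw [le_div_iff₀ (by positivity)] at d6
  have s3 : 2 * K * δ ≤ k / 16 := by linarith [min_le_left k 1]
  have s5 : 2 * K * δ ≤ 1 := by linarith [min_le_right k 1]
  obtain ⟨B, hB⟩ : ∃ B, B = 2 / k * (k / 8 + 2 * n * (1 / l + κ⁻¹) + 4 / k * A + 2 / k +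
    64 * cutK * max Λ 0 + 1) := ⟨_, rfl⟩
  have cK := cutK_nonneg
  have B0 : 0 < B := by rw [hB]; positivity
  refine ⟨δ, max (max R₁ (R₂ + 1)) (Rf + 4), B + Cd * (1 + √B), hδ, by positivity,
    fun N G m r w c hc hr hm hN hG hH hL hP hd hw _ => ?_⟩
  have r1 : R₁ ≤ max (max R₁ (R₂ + 1)) (Rf + 4) := by simp
  have r2 : R₂ + 1 ≤ max (max R₁ (R₂ + 1)) (Rf + 4) := by simp
  have r3 : Rf + 4 ≤ max (max R₁ (R₂ + 1)) (Rf + 4) := by simp
  generalize max (max R₁ (R₂ + 1)) (Rf + 4) = R' at *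
  have hF := rs_reg hc.reg r
  have hr1 : 1 ≤ r := by linarith
  have hχ := rs_tf hc hr1
  have hv := rs_sm hc hN
  have hu : Tf (rs N r) 0 fun p => cut2 r p * ht (sd G 0) p := hχ.mul hF hv
  have w0 : 0 < w := (Real.exp_pos _).trans_le hw
  have pt : ∀ x, (x, (0 : ℝ)) ∈ (rs N r).M → _ := fun x hx =>
    have a0 := rs_tube hc hN (p := (x, 0)) hx
    hla G m w f c x (pr G 0 x) hc.greg hL (pr_mem hc.greg (ctx_reach hc) a0)
      (mem_ball_zero_iff.1 (pr_memU hc.greg (ctx_reach hc) a0))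
      (pr_reach hc.greg (ctx_reach hc) a0)
      ((dist_pr hc.greg (ctx_reach hc) a0).trans_le
        ((hN x (rs_mem.1 hx).1 (rs_mem.1 hx).2).2.2.trans d4)) hM hf0
  have c1 := hco N G Λ m r R' δ _ hc hδ d1 r1 (r1.trans hr) hN hG hH hu fun x hx h => (pt x hx).2 h
  have c2 := core (t := 0) hF (χ := cut2 r) (v := ht (sd G 0))
    (q := fun p => G.A2 (pr G 0 p.1, 0) + 1 / 2) (s := fun p => G.shr (pr G 0 p.1, 0))
    (cs := cs G 0 (pr G 0) (rs N r)) (ψ := fun i p => G.fv (f i) (pr G 0 p.1, 0)) (c := c)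
    (δ := δ) (e := w + ε * ‖c‖) hk K0.le hχ hv
    ((rs_cont hc hN hc.greg.sm_A2.continuousOn).add continuousOn_const)
    (rs_cont hc hN hc.greg.sm_shr.continuousOn)
    (fun i => rs_cont hc hN (cont_fv0 hc.greg (hf.sm i))) fun x hx => by
      have a0 := rs_tube hc hN (p := (x, 0)) hx
      have a1 := (hN x (rs_mem.1 hx).1 (rs_mem.1 hx).2).2.2
      refine ⟨cut2_sq_le _ _, a1, (ctx_tub hc).cs_sq_le hc.greg hF hx a0, ?_, (pt x hx).1,
        fun i => ?_⟩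
      · refine ((ctx_tub hc).key hc.greg hF hx a0 (κ := 2 / ρ₀) (by positivity) (ctx_A2 hc h0 a0)
          ?_).trans ?_
        · rw [← mul_div_assoc, div_le_iff₀ h0]
          change |sd G 0 x| * 2 ≤ _
          linarith
        · have b1 := (rs N r).gam_self_nonneg (ht (sd G 0)) (x, 0)
          have b2 : 0 ≤ (2 / ρ₀) ^ 3 * (rs N r).gam (ht (sd G 0)) (ht (sd G 0)) (x, 0) := by
            positivity
          have b3 : 0 ≤ 2 / ρ₀ * ht (sd G 0) (x, 0) ^ 2 := by positivity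
          rw [hK, e1]; linarith
      · by_cases h : Rf + 1 ≤ ‖x‖
        · exact Or.inl ((pt x hx).2 h i)
        · exact Or.inr (cut2_one hr1 (by simp only; linarith [not_le.1 h]))
  have n1 := IG_nonneg (t := 0) hF (f := e1 (rs N r) fun p => cut2 r p * ht (sd G 0) p)
    fun _ _ => e1_nonneg _ _ _
  have hH1 := fun s hs => H1_le hc hN hr1 (s := s) hs
  have c3 : ∀ i, (∫ x, G.fv (f i) (pr G 0 x, 0) * (cut2 r (x, 0) * ht (sd G 0) (x, 0))
      ∂(rs N r).mu 0) ^ 2 ≤ 2 * w ^ 2 +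
        σ * IG (rs N r) 0 (e1 (rs N r) fun p => cut2 r p * ht (sd G 0) p) := fun i => by
    have a1 := hmo N G S m r R' δ w (f i) hδ d3 hc r3 hr hm hN hG hH (hM i) (hf0 i) (hP i)
    have a2 := ENNReal.toReal_le_of_le_ofReal n1 (hH1 (Rf + 1) (by linarith))
    have a3 : ∫ x, G.fv (f i) (pr G 0 x, 0) * (cut2 r (x, 0) * ht (sd G 0) (x, 0))
        ∂(rs N r).mu 0 = ∫ x in ball 0 (Rf + 1), sd G 0 x * G.fv (f i) (pr G 0 x, 0) ∂N.mu 0 := by
      rw [rs_mu, setIntegral_eq_of_subset_of_ae_sdiff_eq_zero measurableSet_ball.nullMeasurableSet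
        (ball_subset_ball (by linarith : Rf + 1 ≤ r)) ((Hu.ae_sl hc.reg 0).mono fun x hx h => by
          rw [(pt x (rs_mem.2 ⟨hx, mem_ball_zero_iff.1 h.1⟩)).2
            (not_lt.1 fun h' => h.2 (mem_ball_zero_iff.2 h')) i, zero_mul])]
      refine setIntegral_congr_fun measurableSet_ball fun x hx => ?_
      rw [cut2_one hr1 (by simp only; linarith [mem_ball_zero_iff.1 hx]), one_mul, mul_comm]; rfl
    rw [a3]
    exact a1.trans (by gcongr)
  have c4 := hdu N G m r R' (r - 1) δ w _ c hc hδ d2 (by linarith) hm (by linarith) (by linarith)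
    hN hG hH hL hd w0 (Real.sqrt_nonneg _) (by rw [Real.sq_sqrt n1]; exact hH1 _ le_rfl)
  have c5 := phi_le hc hr1 hd
  have c6 := tail_le hc hN (by linarith) (by linarith) hw
  have c7 : IG (rs N r) 0 (fun p => (cut2 r p * ht (sd G 0) p) ^ 2 * (rs N r).shr p ^ 2) ≤
      IG (rs N r) 0 fun p => cut2 r p ^ 2 * (rs N r).shr p ^ 2 :=
    IG_mono hF ((hu.sq hF).ig_mul hF (g := fun p => (rs N r).shr p ^ 2)
      (hF.sm_shr.continuousOn.pow 2)) ((hχ.sq hF).ig_mul hF (g := fun p => (rs N r).shr p ^ 2)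
      (hF.sm_shr.continuousOn.pow 2)) fun x hx => by
        have a1 := (hN x (rs_mem.1 hx).1 (rs_mem.1 hx).2).2.2
        have a2 : ht (sd G 0) (x, 0) ^ 2 ≤ 1 :=
          (sq_le_one_iff_abs_le_one _).2 (a1.trans (by linarith))
        rw [mul_pow]
        exact mul_le_mul_of_nonneg_right (mul_le_of_le_one_right (sq_nonneg _) a2) (sq_nonneg _)
  have n2 := IG_nonneg (t := 0) hF (f := fun p => cut2 r p ^ 2) fun _ _ => sq_nonneg _
  have n3 := IG_nonneg (t := 0) hF (f := fun p => ht (sd G 0) p ^ 2 *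
    (rs N r).gam (cut2 r) (cut2 r) p) fun _ _ => mul_nonneg (sq_nonneg _) (Mv.gam_self_nonneg _ _)
  have c8 := one_le hc hr1
  rw [← hA] at c8
  have c9 := hH1 _ le_rfl
  generalize IG (rs N r) 0 (e1 (rs N r) fun p => cut2 r p * ht (sd G 0) p) = En at *
  have c10 : ‖c‖ ^ 2 ≤ D * (w ^ 2 + En) := by
    have := pow_le_pow_left₀ (norm_nonneg c) c4 2
    have e := Real.sq_sqrt n1
    have e2 : 2 * Cd ^ 2 * (w ^ 2 + √En ^ 2) = (Cd * (w + √En)) ^ 2 + Cd ^ 2 * (w - √En) ^ 2 := by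
      ring
    rw [e] at e2
    rw [hD, e2]
    linarith [mul_nonneg (sq_nonneg Cd) (sq_nonneg (w - √En))]
  have fin := absorb hk hκ hl D0 n1 n2 c1 c2 c3 c10 c8 s1 s2 s3 s4
  have hE : En ≤ B * w ^ 2 := by
    have a1 := mul_le_mul_of_nonneg_left c5 (show 0 ≤ 2 / k by positivity)
    have a2 := mul_le_mul_of_nonneg_right (show 1 + 2 * K * δ ≤ 2 by linarith) n3
    have a3 : k / 2 * (B * w ^ 2) = (k / 8 + 2 * n * (1 / l + κ⁻¹) + 4 / k * A + 2 / k +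
      64 * cutK * max Λ 0 + 1) * w ^ 2 := by rw [hB]; field_simp
    refine le_of_mul_le_mul_left ?_ (show 0 < k / 2 by positivity)
    linarith
  have hs : √En ≤ √B * w := by
    have := Real.sqrt_le_sqrt hE
    rwa [Real.sqrt_mul B0.le, Real.sqrt_sq w0.le] at this
  refine ⟨c4.trans ?_, c9.trans (ENNReal.ofReal_le_ofReal (hE.trans ?_))⟩
  · linarith [mul_le_mul_of_nonneg_left hs hCd.le, mul_pos B0 w0]
  · have : 0 ≤ Cd * (1 + √B) * w ^ 2 := by positivity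
    linarith

theorem dualS_holds : DualS := fun _ Λ _ _ _ _ hS hf h0 h01 h1 => by
  obtain ⟨δ, R₁, C, a, b, h⟩ := Tb.dual hS hf h0 h01 h1 Λ
  exact ⟨δ, R₁, C, a, b, fun N G m r R' r' δ' w M c hc _ h2 h3 _ => h N G m r R' r' δ' w M c hc h2 h3⟩

theorem statS_holds : R.StatS := statS_of momS_holds lagS_holds coDS_holds dualS_holds

end Crest.Agent.N250.Sg

end
end

-- ▼ part N250/Xi/Al0
section

/-!
# Row 250 (helper12): margins and Lipschitz bounds for the inversion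
-/

set_option autoImplicit false
set_option linter.unusedSectionVars false
open Set Filter Topology Metric

noncomputable section

namespace Crest.Agent.N250.Xi

open Crest.Agent.N250.B2 (aa ofR)
open Crest.Agent.N250.Gi (KK hat TL DX Fx Lam)
open R0 B1

theorem margin {K X s : ℝ} {b b' : ℂ} (h : Adm (K + 1) X b) (hK : 0 ≤ K) (hX : 2 ≤ X)
    (hKX : K ≤ X ^ 2) (hs : |s - X| ≤ 1 / (8 * X)) (hb : ‖b' - b‖ ≤ 1 / X ^ 4) : Adm K s b' := by
  have hY : 4 ≤ X ^ 2 := by nlinarith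
  have h1 := Tip.norm_le h (by linarith)
  have h2 : |s - X| * X ≤ 1 / 8 := by
    rw [le_div_iff₀ (by positivity)] at hs; linarith
  have h3 : |s - X| ≤ 1 / 16 := by nlinarith [abs_nonneg (s - X)]
  have h4 : |s ^ 2 - X ^ 2| ≤ 13 / 50 := by
    have e : s ^ 2 - X ^ 2 = (s - X) * (s - X) + 2 * ((s - X) * X) := by ring
    rw [e]
    refine (abs_add_le _ _).trans ?_
    rw [abs_mul, abs_mul, abs_mul, abs_of_nonneg (by linarith : 0 ≤ X), abs_two]
    nlinarith [abs_nonneg (s - X)]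
  obtain ⟨h5, h6⟩ := abs_le.1 h4
  have e : b' * (s : ℂ) ^ 2 / 2 - 1 / 8 = (b * (X : ℂ) ^ 2 / 2 - 1 / 8) +
      b * (((s ^ 2 - X ^ 2) / 2 : ℝ) : ℂ) + (b' - b) * ((s ^ 2 / 2 : ℝ) : ℂ) := by
    push_cast; ring
  have n1 : ‖b * (((s ^ 2 - X ^ 2) / 2 : ℝ) : ℂ)‖ ≤ 13 / 40 / X ^ 2 := by
    rw [norm_mul, Complex.norm_real, Real.norm_eq_abs, abs_div, abs_two,
      le_div_iff₀ (by positivity)]
    nlinarith [norm_nonneg b, abs_nonneg (s ^ 2 - X ^ 2),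
      mul_le_mul h1 h4 (abs_nonneg _) (by norm_num)]
  have n2 : ‖(b' - b) * ((s ^ 2 / 2 : ℝ) : ℂ)‖ ≤ 27 / 50 / X ^ 2 := by
    rw [norm_mul, Complex.norm_real, Real.norm_of_nonneg (by positivity)]
    calc _ ≤ 1 / X ^ 4 * (27 / 50 * X ^ 2) := by gcongr; linarith
      _ = _ := by field_simp
  have n3 : 2 * K / s ^ 2 ≤ 2 * K / X ^ 2 + 1 / X ^ 2 := by
    rw [← add_div, div_le_div_iff₀ (by linarith) (by positivity)]
    nlinarith
  have n4 := norm_add₃_le (a := b * (X : ℂ) ^ 2 / 2 - 1 / 8)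
    (b := b * (((s ^ 2 - X ^ 2) / 2 : ℝ) : ℂ)) (c := (b' - b) * ((s ^ 2 / 2 : ℝ) : ℂ))
  have e2 : 2 * (K + 1) / X ^ 2 = 2 * K / X ^ 2 + 2 * (1 / X ^ 2) := by field_simp
  have e3 : 13 / 40 / X ^ 2 = 13 / 40 * (1 / X ^ 2) := by field_simp
  have e4 : 27 / 50 / X ^ 2 = 27 / 50 * (1 / X ^ 2) := by field_simp
  have p : 0 < 1 / X ^ 2 := by positivity
  unfold Adm at *
  rw [e]
  linarith

theorem adm_re {K X : ℝ} {a : ℂ} (h : Adm K X a) : Adm K X (a.re : ℂ) := by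
  have e : ((a.re : ℝ) : ℂ) * (X : ℂ) ^ 2 / 2 - 1 / 8 = (((a * X ^ 2 / 2 - 1 / 8).re : ℝ) : ℂ) := by
    have : a * X ^ 2 / 2 - 1 / 8 = a * ((X ^ 2 / 2 : ℝ) : ℂ) - ((1 / 8 : ℝ) : ℂ) := by
      push_cast; ring
    rw [this, Complex.sub_re, Complex.re_mul_ofReal, Complex.ofReal_re]
    push_cast; ring
  have := Complex.abs_re_le_norm (a * X ^ 2 / 2 - 1 / 8)
  unfold Adm at *
  rw [e, Complex.norm_real, Real.norm_eq_abs]
  linarith

theorem isOpen_adm (K : ℝ) : IsOpen {p : ℝ × ℂ | 0 < p.1 ∧ Adm K p.1 p.2} := by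
  have h : ContinuousOn (fun p : ℝ × ℂ => ‖p.2 * (p.1 : ℂ) ^ 2 / 2 - 1 / 8‖ + 2 * K / p.1 ^ 2)
      {p | 0 < p.1} :=
    (Continuous.continuousOn (by fun_prop)).add (continuousOn_const.div (by fun_prop)
      fun p hp => pow_ne_zero 2 (ne_of_gt hp))
  exact h.isOpen_inter_preimage (isOpen_lt continuous_const continuous_fst) isOpen_Iio

theorem q_le {K X : ℝ} {a : ℂ} (h : Adm K X a) (hK : 0 ≤ K) (hX : 2 ≤ X) :
    ‖hat X a - a‖ ≤ 7 * (2 * Real.log (X ^ 2) + 2) / X ^ 4 := by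
  have h1 := Tip.norm_le h hK
  have h2 := lam_le h hK hX
  have h3 : ‖a‖ ≤ 5 / 2 / X ^ 2 := by rwa [le_div_iff₀ (by positivity)]
  rw [hat, add_sub_cancel_left, norm_mul, norm_pow]
  calc _ ≤ (5 / 2 / X ^ 2) ^ 2 * (2 * Real.log (X ^ 2) + 2) := by gcongr
    _ = 25 / 4 * (2 * Real.log (X ^ 2) + 2) / X ^ 4 := by field_simp; ring
    _ ≤ _ := by
      have := (norm_nonneg _).trans h2
      gcongr; norm_num

theorem hat_le5 {K X : ℝ} {a : ℂ} (h : Adm K X a) (hK : 0 ≤ K) (hX : 200 ≤ X) :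
    ‖hat X a‖ ≤ 5 / X ^ 2 := by
  have h1 := q_le h hK (by linarith)
  have h2 := log_le (X := X) (by linarith)
  have h3 := quarter' (X := X) (by linarith)
  have h4 : ‖a‖ ≤ 5 / 2 / X ^ 2 := by
    rw [le_div_iff₀ (by positivity)]; exact Tip.norm_le h hK
  have h5 : 7 * (2 * Real.log (X ^ 2) + 2) / X ^ 4 ≤ 5 / 2 / X ^ 2 := by
    rw [div_le_div_iff₀ (by positivity) (by positivity)]
    have : 7 * (2 * Real.log (X ^ 2) + 2) ≤ 5 / 2 * X ^ 2 := by nlinarith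
    nlinarith [mul_le_mul_of_nonneg_right this (sq_nonneg X)]
  have h6 := norm_add_le (hat X a - a) a
  rw [sub_add_cancel] at h6
  have e : 5 / X ^ 2 = 5 / 2 / X ^ 2 + 5 / 2 / X ^ 2 := by ring
  linarith

theorem hat_diff {K X : ℝ} {a : ℂ} (h : Adm K X a) (hK : 0 ≤ K) (hX : 2 ≤ X) :
    DifferentiableAt ℂ (hat X) a := by
  have h4 : 0 ≤ 1 - 2 / X ^ 2 := by
    rw [sub_nonneg, div_le_one (by positivity)]; nlinarith
  have h1 : 0 < (et a X).re := lt_of_lt_of_le (by positivity) (Tip.re_ge h hX)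
  exact differentiableAt_id.add (hasDerivAt_q h1).differentiableAt

theorem lg_le {e : ℝ} (he : 0 < e) : ∃ c : ℝ, 0 ≤ c ∧ ∀ X s : ℝ, 1 ≤ X → 1 ≤ s → s ≤ 2 * X →
    2 * Real.log (s ^ 2) + 2 ≤ c * X ^ e := by
  refine ⟨4 / e * 2 ^ e + 2, by positivity, fun X s hX h1 h2 => ?_⟩
  have a1 := Real.log_le_rpow_div (x := s) (by linarith) he
  have a2 : s ^ e ≤ 2 ^ e * X ^ e := by
    rw [← Real.mul_rpow (by norm_num) (by linarith)]
    exact Real.rpow_le_rpow (by linarith) h2 he.le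
  have a3 : 1 ≤ X ^ e := Real.one_le_rpow hX he.le
  have a4 : s ^ e / e ≤ 2 ^ e * X ^ e / e := by gcongr
  rw [Real.log_pow]
  push_cast
  have e1 : (4 / e * 2 ^ e + 2) * X ^ e = 4 * (2 ^ e * X ^ e / e) + 2 * X ^ e := by field_simp
  linarith

variable {ι κ : Type} [Fintype ι] [Fintype κ]

theorem mk_aa (z : ι ⊕ κ → ℂ) : mk z (aa z) = z := by funext l; cases l <;> rfl

theorem hz_mk (X : ℝ) (z : ι ⊕ κ → ℂ) (a : κ → ℂ) : hz X (mk z a) = mk z fun j => hat X (a j) := by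
  funext l; cases l <;> rfl

theorem mk_ball {r : ℝ} (hr : 0 < r) {z : ι ⊕ κ → ℂ} {a : κ → ℂ} (hz : ∀ i, ‖z (Sum.inl i)‖ < r)
    (ha : ∀ j, ‖a j‖ < r) : mk z a ∈ ball (0 : ι ⊕ κ → ℂ) r := by
  rw [mem_ball_zero_iff, pi_norm_lt_iff hr]
  rintro (i | j)
  exacts [hz i, ha j]

theorem inl_lt {r : ℝ} {z : ι ⊕ κ → ℂ} (hz : z ∈ ball (0 : ι ⊕ κ → ℂ) r) (l : ι ⊕ κ) : ‖z l‖ < r :=
  (norm_le_pi_norm z l).trans_lt (mem_ball_zero_iff.1 hz)

theorem norm_aa (z : ι ⊕ κ → ℂ) : ‖aa z‖ ≤ ‖z‖ :=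
  (pi_norm_le_iff_of_nonneg (norm_nonneg _)).2 fun j => norm_le_pi_norm z (Sum.inr j)

section
variable {E : Type*} [NormedAddCommGroup E] [NormedSpace ℂ E]

theorem diff_mk {f : E → ι ⊕ κ → ℂ} {g : E → κ → ℂ} {x : E} (hf : DifferentiableAt ℂ f x)
    (hg : DifferentiableAt ℂ g x) : DifferentiableAt ℂ (fun y => mk (f y) (g y)) x := by
  rw [differentiableAt_pi] at *
  rintro (i | j)
  exacts [hf (Sum.inl i), hg j]

theorem diff_aa {f : E → ι ⊕ κ → ℂ} {x : E} (hf : DifferentiableAt ℂ f x) :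
    DifferentiableAt ℂ (fun y => aa (f y)) x := by
  rw [differentiableAt_pi] at *
  exact fun j => hf (Sum.inr j)

end

theorem isOpen_Om (r K X0 θ : ℝ) (h : 0 ≤ X0) : IsOpen (Om r K X0 θ : Set (ℂ × (ι ⊕ κ → ℂ))) := by
  refine isOpen_iff_mem_nhds.2 fun q hq => ?_
  have h0 : 0 < q.1.re := h.trans_lt hq.1
  have c1 : Continuous fun q : ℂ × (ι ⊕ κ → ℂ) => q.1.re := by fun_prop
  refine (c1.continuousAt.eventually (lt_mem_nhds hq.1)).and (Eventually.and ?_ (Eventually.and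
    (eventually_all.2 fun i => ?_) (eventually_all.2 fun j => ?_)))
  · exact ContinuousAt.eventually_lt (by fun_prop)
      (continuousAt_const.div c1.continuousAt h0.ne') hq.2.1
  · exact ContinuousAt.eventually_lt (by fun_prop) continuousAt_const (hq.2.2.1 i)
  · have c2 : Continuous fun q : ℂ × (ι ⊕ κ → ℂ) => (q.1.re, q.2 (Sum.inr j)) := by fun_prop
    exact (c2.continuousAt.eventually ((isOpen_adm K).mem_nhds ⟨h0, hq.2.2.2 j⟩)).mono
      fun _ h => h.2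

theorem convex_pi (K X : ℝ) : Convex ℝ {a : κ → ℂ | ∀ j, Adm K X (a j)} :=
  fun _ ha _ hb _ _ hs ht hst j => Tip.convex_adm K X (ha j) (hb j) hs ht hst

end Crest.Agent.N250.Xi

end
end

-- ▼ part N250/Xi/Al1
section

/-!
# Row 250 (helper12): the equation `Z (X, R0.mk z a) = Θ z` on a thin complex strip
-/

set_option autoImplicit false
set_option linter.unusedSectionVars false
open Set Filter Topology Metric

noncomputable section

namespace Crest.Agent.N250.Xi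

open Crest.Agent.N250.B2 (aa ofR)
open Crest.Agent.N250.Gi (KK hat TL DX Fx Lam)
open R0 B1

variable {ι κ : Type} [Fintype ι] [Fintype κ]

theorem lipP {G : Type*} [NormedAddCommGroup G] [NormedSpace ℂ G] {K X : ℝ} {f : (κ → ℂ) → G}
    {ρ ε : ℝ} (hρ : 0 < ρ)
    (hd : ∀ b : κ → ℂ, (∀ j, Adm K X (b j)) → DifferentiableOn ℂ f (ball b ρ))
    (hb : ∀ b : κ → ℂ, (∀ j, Adm K X (b j)) → ∀ x ∈ ball b ρ, ‖f x‖ ≤ ε) {a a' : κ → ℂ}
    (ha : ∀ j, Adm K X (a j)) (ha' : ∀ j, Adm K X (a' j)) : ‖f a - f a'‖ ≤ 2 * ε / ρ * ‖a - a'‖ :=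
  (convex_pi K X).norm_image_sub_le_of_norm_fderiv_le (𝕜 := ℂ)
    (fun b h => (hd b h).differentiableAt (ball_mem_nhds b hρ))
    (fun b h => H.fd_le hρ (hd b h) (hb b h)) ha' ha

/-- the width constant -/
def cw (θ : ℝ) : ℝ := min (θ / 2) (1 / 8)

theorem cw_pos {θ : ℝ} (h : 0 < θ) : 0 < cw θ := lt_min (by positivity) (by norm_num)

/-- the cut is large -/
structure Big (N : ℕ) (C0 r X0 θ C k X : ℝ) : Prop where
  x0 : X0 + 1 < X
  x0' : 0 ≤ X0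
  ge : 200 ≤ X
  K : KK N + 1 ≤ X ^ 2
  K10 : 10 ≤ KK N
  small : 5 / X ^ 2 < r / 2
  c1 : 1 ≤ cw θ * X
  c2 : 32 * C ^ 2 ≤ cw θ * X
  del : C0 / ((N : ℝ) + 1) + C * X ^ (-k) ≤ 1 / 32

/-- the domain of the equation -/
def Om1 (N : ℕ) (r X1 : ℝ) : Set ((ℂ × (ι ⊕ κ → ℂ)) × (κ → ℂ)) :=
  {q | X1 < q.1.1.re ∧ |q.1.1.im| * q.1.1.re ^ 6 < 1 ∧ q.1.2 ∈ ball (0 : ι ⊕ κ → ℂ) r ∧
    ∀ j, Adm (KK N + 1) q.1.1.re (q.2 j)}

/-- the equation -/
def Ph (Z : ℂ × (ι ⊕ κ → ℂ) → ι ⊕ κ → ℂ) (Θ : (ι ⊕ κ → ℂ) → ι ⊕ κ → ℂ)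
    (q : (ℂ × (ι ⊕ κ → ℂ)) × (κ → ℂ)) : κ → ℂ := aa (Z (q.1.1, R0.mk q.1.2 q.2)) - aa (Θ q.1.2)

theorem isOpen_Om1 (N : ℕ) (r X1 : ℝ) (h : 0 ≤ X1) :
    IsOpen (Om1 N r X1 : Set ((ℂ × (ι ⊕ κ → ℂ)) × (κ → ℂ))) := by
  refine isOpen_iff_mem_nhds.2 fun q hq => ?_
  have h0 : 0 < q.1.1.re := h.trans_lt hq.1
  have c1 : Continuous fun q : (ℂ × (ι ⊕ κ → ℂ)) × (κ → ℂ) => q.1.1.re := by fun_prop
  have c3 : Continuous fun q : (ℂ × (ι ⊕ κ → ℂ)) × (κ → ℂ) => q.1.2 := by fun_prop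
  refine (c1.continuousAt.eventually (lt_mem_nhds hq.1)).and (Eventually.and ?_ (Eventually.and
    (c3.continuousAt.eventually (isOpen_ball.mem_nhds hq.2.2.1)) (eventually_all.2 fun j => ?_)))
  · exact ContinuousAt.eventually_lt (by fun_prop) continuousAt_const hq.2.1
  · have c2 : Continuous fun q : (ℂ × (ι ⊕ κ → ℂ)) × (κ → ℂ) => (q.1.1.re, q.2 j) := by fun_prop
    exact (c2.continuousAt.eventually ((isOpen_adm _).mem_nhds ⟨h0, hq.2.2.2 j⟩)).mono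
      fun _ h => h.2

variable {N : ℕ} {C0 r X0 θ C k X : ℝ} {Z : ℂ × (ι ⊕ κ → ℂ) → ι ⊕ κ → ℂ}
  {Θ : (ι ⊕ κ → ℂ) → ι ⊕ κ → ℂ} {A : (κ → ℂ) ≃L[ℂ] (κ → ℂ)}

namespace Big

theorem pos (hB : Big N C0 r X0 θ C k X) : 0 < X := by linarith [hB.ge]

theorem cwp (hB : Big N C0 r X0 θ C k X) : 0 < cw θ :=
  pos_of_mul_pos_left (a := cw θ) (b := X) (by linarith [hB.c1]) hB.pos.le

theorem K0 (hB : Big N C0 r X0 θ C k X) : 0 ≤ KK N := by linarith [hB.K10]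

theorem re_near (hB : Big N C0 r X0 θ C k X) {t : ℂ} (ht : t ∈ ball (X : ℂ) (cw θ / X)) :
    |t.re - X| ≤ 1 / (8 * X) ∧ |t.im| < cw θ / X := by
  have h0 := hB.pos
  rw [mem_ball, dist_eq_norm] at ht
  refine ⟨?_, by simpa using (Complex.abs_im_le_norm (t - X)).trans_lt ht⟩
  have h1 : |t.re - X| < cw θ / X := by simpa using (Complex.abs_re_le_norm (t - X)).trans_lt ht
  refine h1.le.trans ?_
  rw [← div_div]
  gcongr
  exact min_le_right _ _

theorem re_mem (hB : Big N C0 r X0 θ C k X) {s : ℝ} (hs : |s - X| ≤ 1 / (8 * X)) :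
    X - 1 ≤ s ∧ s ≤ 2 * X := by
  have h1 : 1 / (8 * X) ≤ 1 := by rw [div_le_one (by linarith [hB.ge])]; linarith [hB.ge]
  obtain ⟨a, b⟩ := abs_le.1 (hs.trans h1)
  exact ⟨by linarith, by linarith [hB.ge]⟩

theorem adm (hB : Big N C0 r X0 θ C k X) {s : ℝ} (hs : |s - X| ≤ 1 / (8 * X)) {b b' : κ → ℂ}
    (hb : ∀ j, Adm (KK N + 1) X (b j)) (hb' : ‖b' - b‖ ≤ 1 / X ^ 4) (j : κ) : Adm (KK N) s (b' j) :=
  margin (hb j) hB.K0 (by linarith [hB.ge]) (by linarith [hB.K]) hs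
    ((norm_le_pi_norm (b' - b) j).trans hb')

theorem self (hB : Big N C0 r X0 θ C k X) : |X - X| ≤ 1 / (8 * X) := by
  have := hB.pos; rw [sub_self, abs_zero]; positivity

theorem memO (hB : Big N C0 r X0 θ C k X) {t : ℂ} (ht : t ∈ ball (X : ℂ) (cw θ / X))
    {z : ι ⊕ κ → ℂ} (hz : z ∈ ball (0 : ι ⊕ κ → ℂ) r) {b b' : κ → ℂ}
    (hb : ∀ j, Adm (KK N + 1) X (b j)) (hb' : ‖b' - b‖ ≤ 1 / X ^ 4) :
    (t, R0.mk z b') ∈ Om r (KK N) X0 θ := by
  obtain ⟨h1, h2⟩ := hB.re_near ht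
  obtain ⟨h3, h4⟩ := hB.re_mem h1
  have h0 := hB.pos
  refine ⟨by linarith [hB.x0], h2.trans_le ?_, fun i => inl_lt hz _, hB.adm h1 hb hb'⟩
  have h5 : 0 < cw θ := hB.cwp
  have h6 : cw θ ≤ θ / 2 := min_le_left _ _
  rw [div_le_div_iff₀ h0 (by linarith [hB.ge])]
  nlinarith

theorem ctr_mem (hB : Big N C0 r X0 θ C k X) : (X : ℂ) ∈ ball (X : ℂ) (cw θ / X) :=
  mem_ball_self (div_pos hB.cwp hB.pos)

theorem hat_ball (hB : Big N C0 r X0 θ C k X) {K : ℝ} (hK : 0 ≤ K) {b : κ → ℂ}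
    (hb : ∀ j, Adm K X (b j)) (j : κ) : ‖hat X (b j)‖ < r / 2 :=
  (hat_le5 (hb j) hK hB.ge).trans_lt hB.small

end Big

namespace Est

theorem Z_at (h : Est N C0 Z Θ A r X0 θ C k) (h0 : 0 ≤ X0) {q : ℂ × (ι ⊕ κ → ℂ)}
    (hq : q ∈ Om r (KK N) X0 θ) : DifferentiableAt ℂ Z q :=
  h.hZ.differentiableAt ((isOpen_Om _ _ _ _ h0).mem_nhds hq)

theorem Θ_at (h : Est N C0 Z Θ A r X0 θ C k) {z : ι ⊕ κ → ℂ} (hz : z ∈ ball (0 : ι ⊕ κ → ℂ) r) :
    DifferentiableAt ℂ Θ z := h.hol.differentiableAt (isOpen_ball.mem_nhds hz)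

section
variable {E : Type*} [NormedAddCommGroup E] [NormedSpace ℂ E]

theorem dZ (h : Est N C0 Z Θ A r X0 θ C k) (h0 : 0 ≤ X0) {t : E → ℂ} {z : E → ι ⊕ κ → ℂ}
    {b : E → κ → ℂ} {x : E} (ht : DifferentiableAt ℂ t x) (hz : DifferentiableAt ℂ z x)
    (hb : DifferentiableAt ℂ b x) (m : (t x, R0.mk (z x) (b x)) ∈ Om r (KK N) X0 θ) :
    DifferentiableAt ℂ (fun y => aa (Z (t y, R0.mk (z y) (b y)))) x :=
  diff_aa (f := fun y => Z (t y, R0.mk (z y) (b y))) (DifferentiableAt.comp (g := Z)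
    (f := fun y => (t y, R0.mk (z y) (b y))) x (h.Z_at h0 m) (ht.prodMk (diff_mk hz hb)))

theorem dT (h : Est N C0 Z Θ A r X0 θ C k) {z : E → ι ⊕ κ → ℂ} {x : E}
    (hz : DifferentiableAt ℂ z x) (m : z x ∈ ball (0 : ι ⊕ κ → ℂ) r) :
    DifferentiableAt ℂ (fun y => aa (Θ (z y))) x :=
  diff_aa (f := fun y => Θ (z y)) (DifferentiableAt.comp (g := Θ) (f := z) x (h.Θ_at m) hz)

theorem dA (A : (κ → ℂ) ≃L[ℂ] (κ → ℂ)) {f g : E → κ → ℂ} {x : E} (hf : DifferentiableAt ℂ f x)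
    (hg : DifferentiableAt ℂ g x) : DifferentiableAt ℂ (fun y => A.symm (f y - g y)) x :=
  DifferentiableAt.comp (g := A.symm) (f := fun y => f y - g y) x A.symm.differentiableAt (hf.sub hg)

end

theorem half (h : Est N C0 Z Θ A r X0 θ C k) {x : ℝ} (hx : x < r / 2) : x < r := by
  linarith [h.r_pos]

/-- the real cut -/
theorem lipR (h : Est N C0 Z Θ A r X0 θ C k) (hB : Big N C0 r X0 θ C k X) {z : ι ⊕ κ → ℂ}
    (hz : z ∈ ball (0 : ι ⊕ κ → ℂ) r) {a a' : κ → ℂ} (ha : ∀ j, Adm (KK N + 1) X (a j))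
    (ha' : ∀ j, Adm (KK N + 1) X (a' j)) :
    ‖a - a' - A.symm (aa (Z (X, R0.mk z a)) - aa (Z (X, R0.mk z a')))‖ ≤ 3 / 4 * ‖a - a'‖ := by
  have h0 := hB.pos
  have hK1 : 0 ≤ KK N + 1 := by linarith [hB.K0]
  set H : (κ → ℂ) → κ → ℂ := fun b j => hat X (b j) with hH
  set D : (κ → ℂ) → κ → ℂ := fun b => A.symm (aa (Z (X, R0.mk z b)) - aa (Θ (R0.mk z (H b)))) with hD
  have hle : ∀ b : κ → ℂ, ∀ x ∈ ball b (1 / X ^ 4), ‖x - b‖ ≤ 1 / X ^ 4 := fun b x hx =>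
    (mem_ball_iff_norm.1 hx).le
  have h1 : ‖D a - D a'‖ ≤ 2 * (1 / 32 / X ^ 4) / (1 / X ^ 4) * ‖a - a'‖ := by
    refine lipP (f := D) (by positivity) (fun b hb x hx => ?_)
      (fun b hb x hx => ?_) ha ha'
    · have m1 := hB.memO hB.ctr_mem hz hb (hle b x hx)
      have m2 := hB.adm hB.self hb (hle b x hx)
      have d1 : DifferentiableAt ℂ (fun b => aa (Z (X, R0.mk z b))) x :=
        h.dZ hB.x0' (t := fun _ => X) (z := fun _ => z) (b := fun b => b) (by fun_prop)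
          (by fun_prop) (by fun_prop) m1
      have d2 : DifferentiableAt ℂ H x := differentiableAt_pi.2 fun j =>
        DifferentiableAt.comp (g := hat X) (f := fun b : κ → ℂ => b j) x
          (hat_diff (m2 j) hB.K0 (by linarith [hB.ge])) (by fun_prop)
      have d3 : DifferentiableAt ℂ (fun b => aa (Θ (R0.mk z (H b)))) x :=
        h.dT (z := fun b => R0.mk z (H b)) (diff_mk (f := fun _ => z) (differentiableAt_const _) d2)
          (mk_ball h.r_pos (fun i => inl_lt hz _) fun j => h.half (hB.hat_ball hB.K0 m2 j))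
      exact (dA A d1 d3).differentiableWithinAt
    · have m1 := hB.memO hB.ctr_mem hz hb (hle b x hx)
      have := h.est X (by linarith [hB.x0]) _ m1.2.2
      rw [hz_mk] at this
      exact this.trans (by gcongr; exact hB.del)
  have hb : ∀ b : κ → ℂ, (∀ j, Adm (KK N + 1) X (b j)) → H b ∈ ball (0 : κ → ℂ) r := fun b hb => by
    rw [mem_ball_zero_iff, pi_norm_lt_iff h.r_pos]
    exact fun j => h.half (hB.hat_ball hK1 hb j)
  have h2 := h.lin z hz _ (hb a ha) _ (hb a' ha')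
  have h3 : ‖H a - H a' - (a - a')‖ ≤ ‖a - a'‖ / 2 := by
    refine (pi_norm_le_iff_of_nonneg (by positivity)).2 fun j => ?_
    have := q_lip (ha j) (ha' j) (by linarith [hB.K10]) hB.ge
    refine le_trans (le_of_eq ?_) (this.trans ?_)
    · congr 1; simp only [hH, Pi.sub_apply, hat]; ring
    · have := norm_le_pi_norm (a - a') j
      rw [Pi.sub_apply] at this; linarith
  have h4 := norm_add_le (H a - H a' - (a - a')) (a - a')
  rw [sub_add_cancel] at h4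
  have e : a - a' - A.symm (aa (Z (X, R0.mk z a)) - aa (Z (X, R0.mk z a'))) =
      (H a - H a' - A.symm (aa (Θ (R0.mk z (H a))) - aa (Θ (R0.mk z (H a'))))) -
        (H a - H a' - (a - a')) - (D a - D a') := by
    simp only [hD, map_sub]; abel
  have e2 : 2 * (1 / 32 / X ^ 4) / (1 / X ^ 4) = 1 / 16 := by field_simp; norm_num
  rw [e]
  rw [e2] at h1
  refine (norm_sub_le _ _).trans ((add_le_add (norm_sub_le _ _) le_rfl).trans ?_)
  linarith

/-- the complex cut -/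
theorem lipC' (h : Est N C0 Z Θ A r X0 θ C k) {t : ℂ} (hB : Big N C0 r X0 θ C k t.re)
    (ht : |t.im| * t.re ^ 6 < 1) {z : ι ⊕ κ → ℂ}
    (hz : z ∈ ball (0 : ι ⊕ κ → ℂ) r) {a a' : κ → ℂ} (ha : ∀ j, Adm (KK N + 1) t.re (a j))
    (ha' : ∀ j, Adm (KK N + 1) t.re (a' j)) :
    t ∈ ball (t.re : ℂ) (cw θ / t.re) ∧
    ‖a - a' - A.symm (aa (Z (t, R0.mk z a)) - aa (Z (t, R0.mk z a')))‖ ≤ 7 / 8 * ‖a - a'‖ := by
  set X := t.re
  have h0 := hB.pos
  have hC := h.C_nn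
  have hc := cw_pos h.θ_pos
  have e1 : ‖t - X‖ = |t.im| := by
    have : t - X = t.im * Complex.I := by rw [sub_eq_iff_eq_add', Complex.re_add_im]
    rw [this]; simp
  have i1 : |t.im| < 1 / X ^ 6 := by rwa [lt_div_iff₀ (by positivity)]
  have hm : t ∈ ball (X : ℂ) (cw θ / X) := by
    rw [mem_ball_iff_norm, e1]
    refine i1.trans_le ?_
    rw [div_le_div_iff₀ (by positivity) h0]
    have : 1 * (X * 1) ≤ (cw θ * X) * (X * X ^ 4) := by
      gcongr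
      exacts [hB.c1, one_le_pow₀ (by linarith [hB.ge])]
    nlinarith
  refine ⟨hm, ?_⟩
  set g : ℂ → κ → ℂ := fun u => A.symm (aa (Z (u, R0.mk z a)) - aa (Z (u, R0.mk z a'))) with hg
  have z0 : ∀ b : κ → ℂ, ‖b - b‖ ≤ 1 / X ^ 4 := fun b => by rw [sub_self, norm_zero]; positivity
  have d1 : ∀ b : κ → ℂ, (∀ j, Adm (KK N + 1) X (b j)) → ∀ u ∈ ball (X : ℂ) (cw θ / X),
      DifferentiableAt ℂ (fun u => aa (Z (u, R0.mk z b))) u := fun b hb u hu =>
    h.dZ hB.x0' (t := fun u => u) (z := fun _ => z) (b := fun _ => b) (by fun_prop)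
      (by fun_prop) (by fun_prop) (hB.memO hu hz hb (z0 b))
  have h1 := H.lip_le (f := g) (M := C * (2 * C / (1 / X ^ 4) * ‖a - a'‖))
    (fun u hu => (dA A (d1 a ha u hu) (d1 a' ha' u hu)).differentiableWithinAt) (fun u hu => by
      refine (h.A_le _).trans (mul_le_mul_of_nonneg_left ?_ hC)
      refine lipP (f := fun b => aa (Z (u, R0.mk z b))) (by positivity)
        (fun b hb x hx => ?_) (fun b hb x hx => ?_) ha ha'
      · exact (h.dZ hB.x0' (t := fun _ => u) (z := fun _ => z) (b := fun b => b) (by fun_prop)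
          (by fun_prop) (by fun_prop)
          (hB.memO hu hz hb (mem_ball_iff_norm.1 hx).le)).differentiableWithinAt
      · exact (norm_aa _).trans (h.bdZ _ (hB.memO hu hz hb (mem_ball_iff_norm.1 hx).le))) hm
  have h2 := h.lipR hB hz ha ha'
  have h3 : ‖g t - g X‖ ≤ 1 / 8 * ‖a - a'‖ := by
    refine h1.trans ?_
    rw [e1]
    calc _ ≤ 2 * (C * (2 * C / (1 / X ^ 4) * ‖a - a'‖)) / (cw θ / X) * (1 / X ^ 6) := by gcongr
      _ = 32 * C ^ 2 / (cw θ * X) * (1 / 8 * ‖a - a'‖) := by field_simp; ring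
      _ ≤ _ := mul_le_of_le_one_left (by positivity) ((div_le_one (by positivity)).2 hB.c2)
  have e : a - a' - g t = (a - a' - g X) - (g t - g X) := by abel
  change ‖a - a' - g t‖ ≤ _
  rw [e]
  refine (norm_sub_le _ _).trans ?_
  linarith

theorem eq8 (h : Est N C0 Z Θ A r X0 θ C k) {X1 : ℝ} (h1 : 0 ≤ X1)
    (hB : ∀ X, X1 < X → Big N C0 r X0 θ C k X) : Eq8 A (Om1 N r X1) (Ph Z Θ) where
  isOpen := isOpen_Om1 N r X1 h1
  hol q hq := by
    have b := hB _ hq.1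
    have m := b.memO (h.lipC' b hq.2.1 hq.2.2.1 hq.2.2.2 hq.2.2.2).1 hq.2.2.1 hq.2.2.2
      (b' := q.2) (by have := b.pos; rw [sub_self, norm_zero]; positivity)
    exact ((h.dZ b.x0' (t := fun q : (ℂ × (ι ⊕ κ → ℂ)) × (κ → ℂ) => q.1.1) (z := fun q => q.1.2)
      (b := fun q => q.2) (by fun_prop) (by fun_prop) (by fun_prop) m).sub
      (h.dT (z := fun q : (ℂ × (ι ⊕ κ → ℂ)) × (κ → ℂ) => q.1.2) (by fun_prop)
        hq.2.2.1)).differentiableWithinAt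
  lip p a a' ha ha' := by
    have := (h.lipC' (hB _ ha.1) ha.2.1 ha.2.2.1 ha.2.2.2 ha'.2.2.2).2
    simpa only [Ph, sub_sub_sub_cancel_right] using this

end Est

end Crest.Agent.N250.Xi

end
end

-- ▼ part N250/Xi/Tw
section

/-!
Row 250, helper36.  Two-constants lemma: a holomorphic map bounded by `M` on a disc and by `ε` on a
short real segment has a derivative of size `ε / s + M s ^ (n + 1)` at the centre.
-/

set_option autoImplicit false

open Metric Set Complex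

noncomputable section

namespace Crest.Agent.N250.Tw

/-- finite difference weights for the first derivative on the nodes `0, 1, …, n + 1` -/
theorem weights (n : ℕ) : ∃ c : Fin (n + 2) → ℂ, ∀ m : Fin (n + 2),
    ∑ j, c j * ((j : ℕ) : ℂ) ^ (m : ℕ) = if m = 1 then 1 else 0 := by
  classical
  set V : Matrix (Fin (n + 2)) (Fin (n + 2)) ℂ := Matrix.vandermonde fun j => ((j : ℕ) : ℂ) with hV
  have hd : IsUnit V.det := by
    rw [isUnit_iff_ne_zero, hV, Matrix.det_vandermonde_ne_zero_iff]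
    intro i j h
    exact Fin.ext (Nat.cast_injective (R := ℂ) h)
  refine ⟨Matrix.vecMul (Pi.single 1 1) V⁻¹, fun m => ?_⟩
  have h : Matrix.vecMul (Matrix.vecMul (Pi.single 1 1) V⁻¹) V = Pi.single (1 : Fin (n + 2)) 1 := by
    rw [Matrix.vecMul_vecMul, Matrix.nonsing_inv_mul _ hd, Matrix.vecMul_one]
  have h2 := congrFun h m
  rw [Pi.single_apply] at h2
  rw [← h2]
  simp only [Matrix.vecMul, dotProduct, hV, Matrix.vandermonde_apply]

universe u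

/-- the two-constants estimate for the derivative at the centre -/
theorem deriv_le (n : ℕ) : ∃ C : ℝ, 0 < C ∧ ∀ {W : Type u} [NormedAddCommGroup W]
    [NormedSpace ℂ W] [CompleteSpace W] (D : ℂ → W) (x : ℂ) (ρ M ε s : ℝ), 0 < ρ → 0 < s → s < 1 →
    DifferentiableOn ℂ D (ball x ρ) → (∀ z ∈ ball x ρ, ‖D z‖ ≤ M) →
    (∀ t : ℝ, 0 ≤ t → t ≤ s * ρ → ‖D (x + t)‖ ≤ ε) →
    ‖deriv D x‖ ≤ C * (ε / s + M * s ^ (n + 1)) / ρ := by
  obtain ⟨c, hc⟩ := weights n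
  set A : ℝ := ∑ j, ‖c j‖ with hA
  have hA0 : 0 ≤ A := Finset.sum_nonneg fun _ _ => norm_nonneg _
  refine ⟨(A + 1) * (n + 1) * 2 ^ (n + 2), by positivity, ?_⟩
  intro W _ _ _ D x ρ M ε s hρ hs hs1 hD hM hε
  have hmem : ∀ z ∈ ball (0 : ℂ) ρ, x + z ∈ ball x ρ := fun z hz => by
    simpa [mem_ball, dist_eq_norm] using hz
  have hB : Nest.Bd ρ M fun z => D (x + z) :=
    ⟨hD.comp ((differentiableOn_const x).add differentiableOn_id) hmem, fun z hz => hM _ (hmem z hz)⟩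
  have hM0 : 0 ≤ M := (norm_nonneg _).trans (hM x (mem_ball_self hρ))
  have hε0 : 0 ≤ ε := (norm_nonneg _).trans (hε 0 le_rfl (by positivity))
  set g : ℂ → W := fun z => D (x + z) with hg
  set h : ℝ := s * ρ / (n + 1) with hh
  have hh0 : 0 < h := by positivity
  have hnode : ∀ j : Fin (n + 2), 0 ≤ (j : ℕ) * h ∧ (j : ℕ) * h ≤ s * ρ := fun j => by
    refine ⟨by positivity, ?_⟩
    have hj : ((j : ℕ) : ℝ) ≤ n + 1 := by exact_mod_cast Nat.lt_succ_iff.1 j.2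
    calc ((j : ℕ) : ℝ) * h ≤ (n + 1) * h := by gcongr
      _ = s * ρ := by rw [hh]; field_simp
  have hR : ∀ j : Fin (n + 2), ‖g (((j : ℕ) * h : ℝ) : ℂ) -
      ∑ m ∈ Finset.range (n + 2), (((j : ℕ) * h : ℝ) : ℂ) ^ m • Nest.co m g‖ ≤
      2 ^ (n + 2) * s ^ (n + 2) * M := fun j => by
    have hn : ‖(((j : ℕ) * h : ℝ) : ℂ)‖ ≤ s * ρ := by
      rw [Complex.norm_real, Real.norm_of_nonneg (hnode j).1]; exact (hnode j).2
    have hb : (((j : ℕ) * h : ℝ) : ℂ) ∈ ball (0 : ℂ) ρ := by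
      rw [mem_ball_zero_iff]; nlinarith
    refine (hB.taylor_le (n + 2) hb).trans ?_
    calc _ ≤ (s * ρ) ^ (n + 2) * ((2 / ρ) ^ (n + 2) * M) := by gcongr
      _ = 2 ^ (n + 2) * s ^ (n + 2) * M := by
        rw [← mul_assoc, ← mul_pow, ← mul_pow]; congr 2; field_simp
  have hsum : ∑ j : Fin (n + 2), c j • ∑ m ∈ Finset.range (n + 2),
      (((j : ℕ) * h : ℝ) : ℂ) ^ m • Nest.co m g = (h : ℂ) • deriv D x := by
    have e1 : deriv D x = Nest.co 1 g := by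
      rw [Nest.co_one, hg, deriv_comp_const_add]; simp
    simp only [Finset.smul_sum]
    rw [Finset.sum_comm, ← Fin.sum_univ_eq_sum_range
      (fun m => ∑ j : Fin (n + 2), c j • (((j : ℕ) * h : ℝ) : ℂ) ^ m • Nest.co m g) (n + 2)]
    have e2 : ∀ m : Fin (n + 2), ∑ j : Fin (n + 2), c j • (((j : ℕ) * h : ℝ) : ℂ) ^ (m : ℕ) •
        Nest.co m g = if m = 1 then (h : ℂ) • Nest.co 1 g else 0 := fun m => by
      simp only [smul_smul, ← Finset.sum_smul]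
      have : ∑ j : Fin (n + 2), c j * (((j : ℕ) * h : ℝ) : ℂ) ^ (m : ℕ) =
          (if m = 1 then 1 else 0) * (h : ℂ) ^ (m : ℕ) := by
        rw [← hc m, Finset.sum_mul]
        refine Finset.sum_congr rfl fun j _ => ?_
        push_cast; ring
      rw [this]
      split_ifs with hm
      · subst hm; simp
      · simp
    simp only [e2, Finset.sum_ite_eq', Finset.mem_univ, if_true, e1]
  have key : h * ‖deriv D x‖ ≤ A * (ε + 2 ^ (n + 2) * s ^ (n + 2) * M) := by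
    have e : (h : ℂ) • deriv D x = ∑ j : Fin (n + 2), c j • (g (((j : ℕ) * h : ℝ) : ℂ) -
        (g (((j : ℕ) * h : ℝ) : ℂ) - ∑ m ∈ Finset.range (n + 2),
          (((j : ℕ) * h : ℝ) : ℂ) ^ m • Nest.co m g)) := by
      rw [← hsum]; simp only [sub_sub_cancel]
    have e' : h * ‖deriv D x‖ = ‖(h : ℂ) • deriv D x‖ := by
      rw [norm_smul, Complex.norm_real, Real.norm_of_nonneg hh0.le]
    rw [e', e, hA, Finset.sum_mul]
    refine (norm_sum_le _ _).trans (Finset.sum_le_sum fun j _ => ?_)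
    rw [norm_smul]
    refine mul_le_mul_of_nonneg_left ((norm_sub_le _ _).trans (add_le_add ?_ (hR j)))
      (norm_nonneg _)
    exact hε _ (hnode j).1 (hnode j).2
  have h2 : (1 : ℝ) ≤ 2 ^ (n + 2) := one_le_pow₀ (by norm_num)
  have k2 : A * (ε + 2 ^ (n + 2) * s ^ (n + 2) * M) ≤
      (A + 1) * (2 ^ (n + 2) * (ε + s ^ (n + 2) * M)) := by
    have : ε + 2 ^ (n + 2) * s ^ (n + 2) * M ≤ 2 ^ (n + 2) * (ε + s ^ (n + 2) * M) := by nlinarith
    gcongr; linarith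
  have e3 : (A + 1) * (n + 1) * 2 ^ (n + 2) * (ε / s + M * s ^ (n + 1)) / ρ =
      (A + 1) * (2 ^ (n + 2) * (ε + s ^ (n + 2) * M)) / h := by
    rw [hh]; field_simp; ring
  rw [e3, le_div_iff₀ hh0, mul_comm]
  exact key.trans k2

/-- strip form: `ρ = c / X`, `ε = A X ^ (-p)` on the segment, loss `X ^ k` -/
theorem rate (p : ℝ) {k c : ℝ} (hk : 0 < k) (hc : 0 < c) : ∃ C : ℝ, 0 < C ∧
    ∀ {W : Type u} [NormedAddCommGroup W] [NormedSpace ℂ W] [CompleteSpace W] (D : ℂ → W) (x : ℂ)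
    (X M A : ℝ), 1 < X → 0 ≤ A → DifferentiableOn ℂ D (ball x (c / X)) →
    (∀ z ∈ ball x (c / X), ‖D z‖ ≤ M) →
    (∀ t : ℝ, 0 ≤ t → t ≤ X ^ (-k) * (c / X) → ‖D (x + t)‖ ≤ A * X ^ (-p)) →
    ‖deriv D x‖ ≤ C * (A + M) * X ^ (1 - p + k) := by
  obtain ⟨n, hn⟩ := exists_nat_ge (p / k)
  obtain ⟨C, hC, h⟩ := deriv_le.{u} n
  refine ⟨C / c, by positivity, ?_⟩
  intro W _ _ _ D x X M A hX hA hD hM hε
  have hX0 : 0 < X := by linarith
  have hM0 : 0 ≤ M := (norm_nonneg _).trans (hM x (mem_ball_self (by positivity)))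
  have hs1 : X ^ (-k) < 1 := Real.rpow_lt_one_of_one_lt_of_neg hX (by linarith)
  refine (h D x (c / X) M (A * X ^ (-p)) (X ^ (-k)) (by positivity) (by positivity) hs1 hD hM
    hε).trans ?_
  have e1 : A * X ^ (-p) / X ^ (-k) = A * X ^ (-p + k) := by
    rw [mul_div_assoc, ← Real.rpow_sub hX0]; ring_nf
  have e2 : (X ^ (-k)) ^ (n + 1) ≤ X ^ (-p + k) := by
    rw [← Real.rpow_natCast, ← Real.rpow_mul hX0.le]
    refine Real.rpow_le_rpow_of_exponent_le hX.le ?_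
    have := (div_le_iff₀ hk).1 hn
    push_cast; nlinarith
  have e3 : X ^ (1 - p + k) = X * X ^ (-p + k) := by
    rw [show 1 - p + k = 1 + (-p + k) by ring, Real.rpow_add hX0, Real.rpow_one]
  rw [e1, e3]
  calc C * (A * X ^ (-p + k) + M * (X ^ (-k)) ^ (n + 1)) / (c / X)
      ≤ C * (A * X ^ (-p + k) + M * X ^ (-p + k)) / (c / X) := by gcongr
    _ = C / c * (A + M) * (X * X ^ (-p + k)) := by field_simp

end Crest.Agent.N250.Tw
end
end

-- ▼ part N250/Xi/Al2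
section

/-!
# Row 250 (helper12): the inversion `AlS`
-/

set_option autoImplicit false
set_option linter.unusedSectionVars false
open Set Filter Topology Metric

noncomputable section

namespace Crest.Agent.N250.Xi

open Crest.Agent.N250.B2 (aa ofR)
open Crest.Agent.N250.Gi (KK hat TL DX Fx Lam)
open R0 B1

variable {ι κ : Type} [Fintype ι] [Fintype κ] {N : ℕ} {C0 r X0 θ C k X X1 : ℝ}
  {Z : ℂ × (ι ⊕ κ → ℂ) → ι ⊕ κ → ℂ} {Θ : (ι ⊕ κ → ℂ) → ι ⊕ κ → ℂ} {A : (κ → ℂ) ≃L[ℂ] (κ → ℂ)}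

theorem ev_big (h : Est N C0 Z Θ A r X0 θ C k) (h0 : 0 ≤ X0) (hK : 10 ≤ KK N)
    (hN : C0 / ((N : ℝ) + 1) ≤ 1 / 64) : ∀ᶠ X in atTop, Big N C0 r X0 θ C k X := by
  have hc := cw_pos h.θ_pos
  have t1 : Tendsto (fun X : ℝ => C * X ^ (-k)) atTop (𝓝 0) := by
    simpa using (tendsto_rpow_neg_atTop h.k_pos).const_mul C
  have t2 : Tendsto (fun X : ℝ => 5 / X ^ 2) atTop (𝓝 0) :=
    tendsto_const_nhds.div_atTop (tendsto_pow_atTop two_ne_zero)
  have t3 : Tendsto (fun X : ℝ => cw θ * X) atTop atTop := tendsto_id.const_mul_atTop hc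
  filter_upwards [eventually_gt_atTop (X0 + 1), eventually_ge_atTop 200,
    (tendsto_pow_atTop (α := ℝ) two_ne_zero).eventually_ge_atTop (KK N + 1),
    t2.eventually (gt_mem_nhds (half_pos h.r_pos)), t3.eventually_ge_atTop 1,
    t3.eventually_ge_atTop (32 * C ^ 2), t1.eventually (ge_mem_nhds (by norm_num : (0 : ℝ) < 1 / 64))]
    with X a1 a2 a3 a4 a5 a6 a7
  exact ⟨a1, h0, a2, a3, hK, a4, a5, a6, by linarith⟩

/-- the standing hypotheses -/
structure St (N : ℕ) (C0 : ℝ) (Z : ℂ × (ι ⊕ κ → ℂ) → ι ⊕ κ → ℂ) (Θ : (ι ⊕ κ → ℂ) → ι ⊕ κ → ℂ)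
    (A : (κ → ℂ) ≃L[ℂ] (κ → ℂ)) (r X0 θ C k X1 : ℝ) : Prop where
  est : Est N C0 Z Θ A r X0 θ C k
  nn : 0 ≤ X1
  big : ∀ X, X1 < X → Big N C0 r X0 θ C k X
  tip : ∀ X, X1 < X → ∀ a ∈ B2.DB (1 / 16) (TL N X - 0 - 1),
    ∃ a0, Adm (KK N + 2) X a0 ∧ hat X a0 = a

theorem z0 (hB : Big N C0 r X0 θ C k X) (b : κ → ℂ) : ‖b - b‖ ≤ 1 / X ^ 4 := by
  have := hB.pos; rw [sub_self, norm_zero]; positivity

namespace St

theorem eq8 (h : St N C0 Z Θ A r X0 θ C k X1) : Eq8 A (Om1 N r X1) (Ph Z Θ) :=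
  h.est.eq8 h.nn h.big

theorem mem1 {z : ι ⊕ κ → ℂ} (hX : X1 < X) (hz : z ∈ ball (0 : ι ⊕ κ → ℂ) r) {a : κ → ℂ}
    (ha : ∀ j, Adm (KK N + 1) X (a j)) : (((X : ℂ), z), a) ∈ Om1 N r X1 :=
  ⟨hX, by simp, hz, ha⟩

theorem main (h : St N C0 Z Θ A r X0 θ C k X1) (hX : X1 < X) {z : ι ⊕ κ → ℂ}
    (hz : z ∈ DX N (r / 2) (1 / 16) X) :
    z ∈ ball (0 : ι ⊕ κ → ℂ) (r / 2) ∧ ((X : ℂ), z) ∈ WW (Om1 N r X1) (Ph Z Θ) := by
  have hB := h.big X hX
  have h0 := hB.pos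
  have hr := h.est.r_pos
  choose a0 h1 h2 using fun j => h.tip X hX _ (hz.2 j)
  have e : (fun j => hat X (a0 j)) = aa z := funext h2
  have m : z ∈ ball (0 : ι ⊕ κ → ℂ) (r / 2) := by
    rw [← mk_aa z, ← e]
    exact mk_ball (by positivity) hz.1 (hB.hat_ball (by linarith [hB.K0]) h1)
  have m' : z ∈ ball (0 : ι ⊕ κ → ℂ) r := ball_subset_ball (by linarith) m
  have h3 : ∀ j, Adm (KK N + 1 + 1) X (a0 j) := fun j => by
    rw [add_assoc, one_add_one_eq_two]; exact h1 j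
  refine ⟨m, (h.eq8.ex (a0 := a0) (ρ := 1 / X ^ 4) (fun a ha => mem1 hX m' fun j => ?_)
    (by positivity) ?_).1⟩
  · exact margin (h3 j) (by linarith [hB.K0]) (by linarith [hB.ge]) hB.K hB.self
      ((norm_le_pi_norm (a - a0) j).trans (mem_closedBall_iff_norm.1 ha))
  · have m1 := hB.memO hB.ctr_mem m' (fun j => adm_mono (h1 j) (by linarith)) (z0 hB a0)
    have := h.est.est X (by linarith [hB.x0]) _ m1.2.2
    rw [hz_mk, e, mk_aa] at this
    refine this.trans ?_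
    rw [div_right_comm]
    gcongr
    linarith [hB.del]

theorem eq_of (h : St N C0 Z Θ A r X0 θ C k X1) {q : ℂ × (ι ⊕ κ → ℂ)}
    (hq : q ∈ WW (Om1 N r X1) (Ph Z Θ)) :
    Z (q.1, R0.mk q.2 (sl (Om1 N r X1) (Ph Z Θ) q)) = Θ q.2 := by
  have m := sl_mem hq
  have b := h.big _ m.1
  have m2 := b.memO (h.est.lipC' b m.2.1 m.2.2.1 m.2.2.2 m.2.2.2).1 m.2.2.1 m.2.2.2 (z0 b _)
  funext l
  rcases l with i | j
  · exact (h.est.inlZ _ m2 i).trans (h.est.inl _ m.2.2.1 i).symm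
  · exact congrFun (sub_eq_zero.1 (sl_eq hq)) j

theorem real (h : St N C0 Z Θ A r X0 θ C k X1) (hX : X1 < X) {x : ι ⊕ κ → ℝ}
    (hz : ofR x ∈ DX N (r / 2) (1 / 16) X) (j : κ) :
    (sl (Om1 N r X1) (Ph Z Θ) (X, ofR x) j).im = 0 := by
  obtain ⟨-, hw⟩ := h.main hX hz
  have hB := h.big X hX
  have m := sl_mem hw
  set a := sl (Om1 N r X1) (Ph Z Θ) (X, ofR x)
  have ha : ∀ j, Adm (KK N + 1) X ((a j).re : ℂ) := fun j => adm_re (m.2.2.2 j)
  refine h.eq8.real m (sl_eq hw) (mem1 hX m.2.2.1 ha) (h.est.A_real _ fun i => ?_) j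
  have e : R0.mk (ofR x) (fun j => ((a j).re : ℂ)) =
      ofR (Sum.elim (fun i => x (Sum.inl i)) fun j => (a j).re) := by
    funext l; cases l <;> rfl
  have m1 := hB.memO hB.ctr_mem m.2.2.1 ha (z0 hB _)
  have h1 := h.est.realZ X (by linarith [hB.x0]) _ (e ▸ m1.2.2) (Sum.inr i)
  have h2 := h.est.real x (by
    rw [pi_norm_lt_iff h.est.r_pos]
    exact fun l => by simpa [ofR] using inl_lt m.2.2.1 l) (Sum.inr i)
  simp only [Ph, Pi.sub_apply, Complex.sub_im, aa, e, h1, h2, sub_zero]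

/-- comparison of `A⁻¹ (Z (s, mk z a) - Θ z)` with `hat s a - aa z` -/
theorem cmp (h : St N C0 Z Θ A r X0 θ C k X1) {s : ℝ} (hs : X1 < s) {z : ι ⊕ κ → ℂ}
    (hz : z ∈ ball (0 : ι ⊕ κ → ℂ) r) {a : κ → ℂ} (ha : ∀ j, Adm (KK N) s (a j)) :
    ‖(fun j => hat s (a j)) - aa z - A.symm (Ph Z Θ ((s, z), a))‖ ≤
      ‖(fun j => hat s (a j)) - aa z‖ / 8 + (C0 / ((N : ℝ) + 1) + C * s ^ (-k)) / s ^ 4 := by
  have hB := h.big s hs
  have hr := h.est.r_pos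
  have h1 := h.est.est s (by linarith [hB.x0]) (R0.mk z a) ⟨fun i => inl_lt hz _, ha⟩
  rw [hz_mk] at h1
  have h2 := h.est.lin z hz (fun j => hat s (a j)) (by
    rw [mem_ball_zero_iff, pi_norm_lt_iff hr]
    exact fun j => h.est.half (hB.hat_ball hB.K0 ha j)) (aa z)
    (mem_ball_zero_iff.2 ((norm_aa z).trans_lt (mem_ball_zero_iff.1 hz)))
  rw [mk_aa] at h2
  refine le_trans (le_of_eq ?_) ((norm_sub_le _ _).trans (add_le_add h2 h1))
  congr 1
  simp only [Ph, map_sub]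
  abel

theorem pos (h : St N C0 Z Θ A r X0 θ C k X1) (hX : X1 < X) {z : ι ⊕ κ → ℂ}
    (hz : z ∈ DX N (r / 2) (1 / 16) X) :
    ‖(fun j => hat X (sl (Om1 N r X1) (Ph Z Θ) (X, z) j)) - aa z‖ ≤
      2 * ((C0 / ((N : ℝ) + 1) + C * X ^ (-k)) / X ^ 4) := by
  obtain ⟨-, hw⟩ := h.main hX hz
  have m := sl_mem hw
  have := h.cmp hX m.2.2.1 (a := sl (Om1 N r X1) (Ph Z Θ) (X, z))
    fun j => adm_mono (m.2.2.2 j) (by linarith)
  rw [sl_eq hw, map_zero, sub_zero] at this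
  linarith [norm_nonneg ((fun j => hat X (sl (Om1 N r X1) (Ph Z Θ) (X, z) j)) - aa z)]

theorem Ph_le (h : St N C0 Z Θ A r X0 θ C k X1) {t : ℂ} {z : ι ⊕ κ → ℂ} {a : κ → ℂ}
    (m : (t, R0.mk z a) ∈ Om r (KK N) X0 θ) (hz : z ∈ ball (0 : ι ⊕ κ → ℂ) r) :
    ‖A.symm (Ph Z Θ ((t, z), a))‖ ≤ C * (2 * C) := by
  refine (h.est.A_le _).trans (mul_le_mul_of_nonneg_left ((norm_sub_le _ _).trans ?_) h.est.C_nn)
  linarith [(norm_aa _).trans (h.est.bdZ _ m), (norm_aa _).trans (h.est.bdd _ hz)]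

theorem dz (h : St N C0 Z Θ A r X0 θ C k X1) (hX : X1 < X) {z : ι ⊕ κ → ℂ}
    (hz : z ∈ DX N (r / 2) (1 / 16) X) (v : ι ⊕ κ → ℂ) :
    ‖fderiv ℂ (sl (Om1 N r X1) (Ph Z Θ)) (X, z) (0, v)‖ ≤
      8 * (2 * (C * (2 * C)) / (r / 2)) * ‖v‖ := by
  obtain ⟨hb, hw⟩ := h.main hX hz
  have hB := h.big X hX
  have hr := h.est.r_pos
  have m := sl_mem hw
  set a := sl (Om1 N r X1) (Ph Z Θ) (X, z) with ha
  have hs : ball z (r / 2) ⊆ ball 0 r := ball_subset_ball' (by rw [mem_ball] at hb; linarith)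
  set F : (ι ⊕ κ → ℂ) → κ → ℂ := fun w => A.symm (Ph Z Θ ((X, w), a)) with hF
  have hm : ∀ w ∈ ball z (r / 2), ((X : ℂ), R0.mk w a) ∈ Om r (KK N) X0 θ := fun w hw =>
    hB.memO hB.ctr_mem (hs hw) m.2.2.2 (z0 hB a)
  have hd : ∀ w ∈ ball z (r / 2), DifferentiableAt ℂ F w := fun w hw =>
    Est.dA A (h.est.dZ hB.x0' (t := fun _ => X) (z := fun w => w) (b := fun _ => a) (by fun_prop)
      (by fun_prop) (by fun_prop) (hm w hw)) (h.est.dT (z := fun w => w) (by fun_prop) (hs hw))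
  have h1 := H.fd_le (half_pos hr) (fun w hw => (hd w hw).differentiableWithinAt)
    fun w hw => h.Ph_le (hm w hw) (hs hw)
  have g1 : HasDerivAt (fun t : ℂ => z + t • v) v 0 := by
    simpa using ((hasDerivAt_id (0 : ℂ)).smul_const v).const_add z
  have g2 : HasDerivAt (fun t : ℂ => ((X : ℂ), z + t • v)) (0, v) 0 :=
    (hasDerivAt_const _ _).prodMk g1
  have e0 : z + (0 : ℂ) • v = z := by simp
  have h2 := h.eq8.deriv_le g2.differentiableAt (by simpa using hw)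
  have h3 := ((h.eq8.sl_diffAt hw).hasFDerivAt.comp_hasDerivAt_of_eq 0 g2 (by simp)).deriv
  have h4 := ((hd z (mem_ball_self (half_pos hr))).hasFDerivAt.comp_hasDerivAt_of_eq 0 g1
    (by simp)).deriv
  simp only [e0] at h2
  rw [← h3, mul_assoc]
  refine h2.trans (mul_le_mul_of_nonneg_left ?_ (by norm_num))
  exact (congrArg norm h4).trans_le (ContinuousLinearMap.le_of_opNorm_le _ h1 v)

theorem dX (h : St N C0 Z Θ A r X0 θ C k X1) {e : ℝ} (he : 0 < e) : ∃ C' : ℝ, ∀ X : ℝ, X1 < X →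
    ∀ z ∈ DX N (r / 2) (1 / 16) X,
      ‖fderiv ℂ (sl (Om1 N r X1) (Ph Z Θ)) (X, z) (1, 0)‖ ≤ C' * X ^ e / X ^ 3 := by
  have hc := cw_pos h.est.θ_pos
  obtain ⟨c, c0, hl⟩ := lg_le (half_pos he)
  obtain ⟨Ct, -, hT⟩ := Tw.rate.{0} (4 - e / 2) (half_pos he) hc
  refine ⟨8 * (Ct * (16 * c + 1 + C * (2 * C))), fun X hX z hz => ?_⟩
  obtain ⟨-, hw⟩ := h.main hX hz
  have hB := h.big X hX
  have h0 := hB.pos
  have h1X : 1 ≤ X := by linarith [hB.ge]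
  have m := sl_mem hw
  have hp := h.pos hX hz
  set a := sl (Om1 N r X1) (Ph Z Θ) (X, z) with ha
  have hzb : z ∈ ball (0 : ι ⊕ κ → ℂ) r := m.2.2.1
  have haa : ∀ j, Adm (KK N + 1) X (a j) := m.2.2.2
  have hm : ∀ t ∈ ball (X : ℂ) (cw θ / X), (t, R0.mk z a) ∈ Om r (KK N) X0 θ := fun t ht =>
    hB.memO ht hzb haa (z0 hB a)
  have h1 := hT (fun t => A.symm (Ph Z Θ ((t, z), a))) X X (C * (2 * C)) (16 * c + 1)
    (by linarith [hB.ge]) (by positivity) (fun t ht => (Est.dA A (h.est.dZ hB.x0' (t := fun t => t)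
      (z := fun _ => z) (b := fun _ => a) (by fun_prop) (by fun_prop) (by fun_prop) (hm t ht))
      (differentiableAt_const (aa (Θ z)))).differentiableWithinAt)
    (fun t ht => h.Ph_le (hm t ht) hzb) fun t t0 t1 => by
      have x1 : X ^ (-(e / 2)) ≤ 1 := Real.rpow_le_one_of_one_le_of_nonpos h1X (by linarith)
      have x2 : |X + t - X| ≤ 1 / (8 * X) := by
        rw [add_sub_cancel_left, abs_of_nonneg t0, ← div_div]
        refine t1.trans ((mul_le_of_le_one_left (by positivity) x1).trans ?_)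
        gcongr
        exact min_le_right _ _
      have x3 := (hB.re_mem x2).2
      have x4 := hB.adm x2 haa (z0 hB a)
      have hS := h.big (X + t) (by linarith)
      have y1 := h.cmp (s := X + t) (by linarith) hzb x4
      have p4 : 0 < X ^ 4 := by positivity
      have p5 : 1 ≤ X ^ (e / 2) := Real.one_le_rpow h1X (by linarith)
      have y2 : (C0 / ((N : ℝ) + 1) + C * (X + t) ^ (-k)) / (X + t) ^ 4 ≤ 1 / 32 / X ^ 4 := by
        gcongr
        exacts [hS.del, by linarith]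
      have y3 : (C0 / ((N : ℝ) + 1) + C * X ^ (-k)) / X ^ 4 ≤ 1 / 32 / X ^ 4 := by
        gcongr
        exact hB.del
      have y4 : ‖(fun j => hat (X + t) (a j)) - fun j => hat X (a j)‖ ≤
          14 * (c * X ^ (e / 2)) / X ^ 4 := by
        refine (pi_norm_le_iff_of_nonneg (by positivity)).2 fun j => ?_
        have b1 := q_le (x4 j) hB.K0 (by linarith [hB.ge])
        have b2 := q_le (haa j) (by linarith [hB.K0]) (by linarith [hB.ge])
        have b3 : 7 * (2 * Real.log ((X + t) ^ 2) + 2) / (X + t) ^ 4 ≤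
            7 * (c * X ^ (e / 2)) / X ^ 4 := by
          gcongr
          exacts [hl X _ h1X (by linarith) x3, by linarith]
        have b4 : 7 * (2 * Real.log (X ^ 2) + 2) / X ^ 4 ≤ 7 * (c * X ^ (e / 2)) / X ^ 4 := by
          gcongr
          exact hl X _ h1X h1X (by linarith)
        have b5 := norm_sub_le (hat (X + t) (a j) - a j) (hat X (a j) - a j)
        rw [sub_sub_sub_cancel_right] at b5
        have e1 : 14 * (c * X ^ (e / 2)) / X ^ 4 = 2 * (7 * (c * X ^ (e / 2)) / X ^ 4) := by ring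
        rw [Pi.sub_apply]
        linarith
      have y5 := norm_sub_le_norm_sub_add_norm_sub (fun j => hat (X + t) (a j))
        (fun j => hat X (a j)) (aa z)
      have y6 := norm_sub_le ((fun j => hat (X + t) (a j)) - aa z)
        ((fun j => hat (X + t) (a j)) - aa z - A.symm (Ph Z Θ ((((X + t : ℝ) : ℂ), z), a)))
      rw [sub_sub_cancel] at y6
      have e2 : X ^ (-(4 - e / 2)) = X ^ (e / 2) / X ^ 4 := by
        rw [neg_sub, Real.rpow_sub h0]; norm_cast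
      rw [← Complex.ofReal_add, e2]
      have e3 : 14 * (c * X ^ (e / 2)) / X ^ 4 = 14 * (c * (X ^ (e / 2) / X ^ 4)) := by ring
      have e4 : 1 / 32 / X ^ 4 ≤ 1 / 32 * (X ^ (e / 2) / X ^ 4) := by
        rw [← mul_div_assoc]; gcongr; linarith
      have e5 : 0 ≤ c * (X ^ (e / 2) / X ^ 4) := by positivity
      have e6 : 0 ≤ X ^ (e / 2) / X ^ 4 := by positivity
      rw [add_mul, mul_assoc]
      linarith
  have g2 : HasDerivAt (fun t : ℂ => (t, z)) (1, 0) X :=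
    (hasDerivAt_id _).prodMk (hasDerivAt_const _ _)
  have h2 := h.eq8.deriv_le g2.differentiableAt hw
  have h3 := ((h.eq8.sl_diffAt hw).hasFDerivAt.comp_hasDerivAt (X : ℂ) g2).deriv
  have e2 : X ^ (1 - (4 - e / 2) + e / 2) = X ^ e / X ^ 3 := by
    rw [show 1 - (4 - e / 2) + e / 2 = e - 3 by ring, Real.rpow_sub h0]; norm_cast
  rw [← h3, mul_div_assoc, mul_assoc, ← e2]
  exact h2.trans (mul_le_mul_of_nonneg_left h1 (by norm_num))

end St

theorem Est.mx (h : Est N C0 Z Θ A r X0 θ C k) : Est N C0 Z Θ A r (max X0 0) θ C k :=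
  have hs : (Om r (KK N) (max X0 0) θ : Set (ℂ × (ι ⊕ κ → ℂ))) ⊆ Om r (KK N) X0 θ :=
    fun _ hq => ⟨(le_max_left _ _).trans_lt hq.1, hq.2⟩
  { h with
    hZ := h.hZ.mono hs
    bdZ := fun q hq => h.bdZ q (hs hq)
    inlZ := fun q hq => h.inlZ q (hs hq)
    realZ := fun X hX => h.realZ X ((le_max_left _ _).trans_lt hX)
    est := fun X hX => h.est X ((le_max_left _ _).trans_lt hX) }

theorem alS_holds : AlS := by
  intro C0
  obtain ⟨N1, h1⟩ := tip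
  refine ⟨2 * C0, max (max N1 6) ⌈64 * C0⌉₊, fun N hN ι κ _ _ Z Θ A r X0 θ C k h => ?_⟩
  obtain ⟨X2, h2⟩ := h1 N (((le_max_left _ _).trans (le_max_left _ _)).trans hN)
  have n1 : (6 : ℝ) ≤ N := by exact_mod_cast ((le_max_right _ _).trans (le_max_left _ _)).trans hN
  have n2 : 64 * C0 ≤ N := Nat.ceil_le.1 ((le_max_right _ _).trans hN)
  obtain ⟨X3, h3⟩ := eventually_atTop.1 (ev_big h.mx (le_max_right _ _)
    (by unfold KK; linarith) (by rw [div_le_div_iff₀ (by positivity) (by norm_num)]; linarith))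
  set X1 := max (max X0 0) (max X2 X3)
  have S : St N C0 Z Θ A r (max X0 0) θ C k X1 :=
    ⟨h.mx, (le_max_right _ _).trans (le_max_left _ _),
      fun X hX => h3 X (((le_max_right _ _).trans (le_max_right _ _)).trans hX.le),
      fun X hX => h2 X (((le_max_left _ _).trans (le_max_right _ _)).trans hX.le)⟩
  have hr := h.r_pos
  have hC := h.C_nn
  set D1 := 8 * (2 * (C * (2 * C)) / (r / 2))
  set D2 := 2 * C / (r / 2)
  have d1 : 0 ≤ D1 := by positivity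
  have d2 : 0 ≤ D2 := by positivity
  have hs : ∀ z ∈ ball (0 : ι ⊕ κ → ℂ) (r / 2), ball z (r / 2) ⊆ ball 0 r := fun z hz =>
    ball_subset_ball' (by rw [mem_ball] at hz; linarith)
  refine ⟨sl (Om1 N r X1) (Ph Z Θ), X1, 2 * C + D1 + D2, (le_max_left _ _).trans (le_max_left _ _),
    half_pos hr, by positivity, fun X hX z hz => (S.main hX hz).1,
    fun X hX z hz => ?_, fun X hX z hz => (sl_mem (S.main hX hz).2).2.2.2, fun X hX z hz => ?_,
    fun X hX x hx => S.real hX hx, fun X hX z hz j => ?_, fun e he => ?_,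
    fun X hX z hz v => (S.dz hX hz v).trans ?_, fun z hz => ⟨h.Θ_at (hs z hz
      (mem_ball_self (half_pos hr))), (H.fd_le (half_pos hr) (h.hol.mono (hs z hz))
        fun w hw => h.bdd w (hs z hz hw)).trans (by change D2 ≤ _; linarith)⟩⟩
  · filter_upwards [S.eq8.isOpen_WW.mem_nhds (S.main hX hz).2] with q hq using S.eq8.sl_diffAt hq
  · filter_upwards [S.eq8.isOpen_WW.mem_nhds (S.main hX hz).2] with q hq using S.eq_of hq
  · refine ((norm_le_pi_norm _ j).trans (S.pos hX hz)).trans ?_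
    have h0 := (S.big X hX).pos
    have : 0 ≤ (D1 + D2) * X ^ (-k) := by positivity
    rw [← mul_div_assoc]
    gcongr
    rw [mul_div_assoc]
    linarith
  · obtain ⟨C', hC'⟩ := S.dX he
    exact ⟨C', X1, hC'⟩
  · have h4 : 1 ≤ X ^ 4 := one_le_pow₀ (by linarith [(S.big X hX).ge])
    refine mul_le_mul_of_nonneg_right ?_ (norm_nonneg v)
    change D1 ≤ _
    nlinarith

end Crest.Agent.N250.Xi

end
end

-- ▼ part N250/Xi/Main

/-!
# Row 250 (helper12): `XiS`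
-/

namespace Crest.Agent.N250.Xi

theorem xiS_holds : R0.XiS := xiS_of estS_holds alS_holds derS_holds softS_holds

end Crest.Agent.N250.Xi
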